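import Vale.Agent.P338.R2.H784.Analytic

/-!
P338: the cost sum of the main loop.
-/

namespace Vale.Agent.P338.R2.H778

/-- Possible total costs of the main loop and the direct passes from height `h`; `l` is the
exponent of the padded size, `T` bounds a call of the multiplication machine, `N` is the size of
the operands. -/
inductive Tot (l T c1 c2 N : ℕ) : ℕ → ℕ → Prop
  | base (h : ℕ) (hh : h < 4) : Tot l T c1 c2 N h (c2 * (h + 1) * 4 ^ l)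
  | stop (h Ti : ℕ) (h4 : 4 ≤ h) (hTi : Ti ≤ 2 * T) (hbig : (h + 1) / 2 * 4 ^ l < Ti) :
      Tot l T c1 c2 N h (c1 * (Ti + N + 4 ^ l) + c2 * ((h + 1) / 2 + 1) * 4 ^ l)
  | step (h Ti t2 : ℕ) (h4 : 4 ≤ h) (hTi : Ti ≤ 2 * T) (hsmall : Ti ≤ (h + 1) / 2 * 4 ^ l)
      (h2 : Tot l T c1 c2 N ((h + 1) / 2) t2) :
      Tot l T c1 c2 N h (c1 * (Ti + N + 4 ^ l) + t2)

theorem log_pred {h : ℕ} (h4 : 4 ≤ h) :
    Nat.log 2 (h - 1) = Nat.log 2 ((h + 1) / 2 - 1) + 1 := by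
  have h1 : (h + 1) / 2 - 1 = (h - 1) / 2 := by omega
  rw [h1, Nat.log_div_base]
  have : 1 ≤ Nat.log 2 (h - 1) := by
    rw [Nat.le_log_iff_pow_le (by norm_num) (by omega)]
    omega
  omega

theorem Tot.le {l T c1 c2 c3 N : ℕ} (hN : N ≤ c3 * 4 ^ l) {h t : ℕ}
    (ht : Tot l T c1 c2 N h t) (r : ℕ) :
    (t : ℝ) ≤ (2 * c1 * r + 2 * c1 + 2 * c2) * T + (4 : ℝ) ^ l * (4 * c1 * ((h : ℝ) / 2 ^ r) +
      (c1 * (c3 + 1) + 2 * c1 + 4 * c2) * ((Nat.log 2 (h - 1) : ℝ) + 1)) := by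
  have hN' : (N : ℝ) ≤ c3 * 4 ^ l := by exact_mod_cast hN
  have hp : (0 : ℝ) < 4 ^ l := by positivity
  have hc1 : (0 : ℝ) ≤ c1 := by positivity
  have hc2 : (0 : ℝ) ≤ c2 := by positivity
  have hc3 : (0 : ℝ) ≤ c3 := by positivity
  have hT : (0 : ℝ) ≤ T := by positivity
  induction ht generalizing r with
  | base h hh =>
    have hh' : (h : ℝ) + 1 ≤ 4 := by
      have : h + 1 ≤ 4 := by omega
      exact_mod_cast this
    have e1 : (0 : ℝ) ≤ (2 * c1 * r + 2 * c1 + 2 * c2) * T := by positivity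
    have e2 : (0 : ℝ) ≤ 4 * c1 * ((h : ℝ) / 2 ^ r) := by positivity
    have e3 : (c2 : ℝ) * (h + 1) ≤ 4 * c2 := by nlinarith
    have e4 : (4 * c2 : ℝ) ≤ (c1 * (c3 + 1) + 2 * c1 + 4 * c2) * ((Nat.log 2 (h - 1) : ℝ) + 1) := by
      have e5 : (0 : ℝ) ≤ (Nat.log 2 (h - 1) : ℝ) := by positivity
      have e6 : (4 * c2 : ℝ) ≤ (c1 * (c3 + 1) + 2 * c1 + 4 * c2) := by nlinarith
      nlinarith
    have e7 : (4 : ℝ) ^ l * (c2 * (h + 1)) ≤ (4 : ℝ) ^ l * (4 * c1 * ((h : ℝ) / 2 ^ r) +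
        (c1 * (c3 + 1) + 2 * c1 + 4 * c2) * ((Nat.log 2 (h - 1) : ℝ) + 1)) := by
      apply mul_le_mul_of_nonneg_left _ hp.le
      linarith
    push_cast
    linarith
  | stop h Ti h4 hTi hbig =>
    have hTi' : (Ti : ℝ) ≤ 2 * T := by exact_mod_cast hTi
    have hbig' : (((h + 1) / 2 : ℕ) : ℝ) * 4 ^ l ≤ Ti := by exact_mod_cast hbig.le
    have e1 : (c1 : ℝ) * (Ti + N + 4 ^ l) ≤ c1 * (2 * T + c3 * 4 ^ l + 4 ^ l) := by
      apply mul_le_mul_of_nonneg_left _ hc1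
      linarith
    have e2 : (c2 : ℝ) * ((((h + 1) / 2 : ℕ) : ℝ) * 4 ^ l) ≤ c2 * (2 * T) :=
      mul_le_mul_of_nonneg_left (hbig'.trans hTi') hc2
    have e3 : (0 : ℝ) ≤ 2 * c1 * r * T := by positivity
    have e4 : (0 : ℝ) ≤ 4 * c1 * ((h : ℝ) / 2 ^ r) := by positivity
    have e5 : (c1 * (c3 + 1) + 2 * c1 + 4 * c2 : ℝ) ≤
        (c1 * (c3 + 1) + 2 * c1 + 4 * c2) * ((Nat.log 2 (h - 1) : ℝ) + 1) := by
      have e6 : (0 : ℝ) ≤ (Nat.log 2 (h - 1) : ℝ) := by positivity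
      have e7 : (0 : ℝ) ≤ (c1 * (c3 + 1) + 2 * c1 + 4 * c2) := by positivity
      nlinarith
    have e8 : (4 : ℝ) ^ l * (c1 * (c3 + 1) + c2) ≤ (4 : ℝ) ^ l * (4 * c1 * ((h : ℝ) / 2 ^ r) +
        (c1 * (c3 + 1) + 2 * c1 + 4 * c2) * ((Nat.log 2 (h - 1) : ℝ) + 1)) := by
      apply mul_le_mul_of_nonneg_left _ hp.le
      linarith
    push_cast
    nlinarith
  | step h Ti t2 h4 hTi hsmall h2 ih =>
    have hTi' : (Ti : ℝ) ≤ 2 * T := by exact_mod_cast hTi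
    have hsmall' : (Ti : ℝ) ≤ (((h + 1) / 2 : ℕ) : ℝ) * 4 ^ l := by exact_mod_cast hsmall
    have hlog := log_pred h4
    have hlog' : (Nat.log 2 (h - 1) : ℝ) = (Nat.log 2 ((h + 1) / 2 - 1) : ℝ) + 1 := by
      exact_mod_cast hlog
    have hh2 : (((h + 1) / 2 : ℕ) : ℝ) ≤ ((h : ℝ) + 1) / 2 := by
      rw [le_div_iff₀ (by norm_num)]
      have : (h + 1) / 2 * 2 ≤ h + 1 := Nat.div_mul_le_self _ _
      exact_mod_cast this
    have h4' : (4 : ℝ) ≤ h := by exact_mod_cast h4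
    set g : ℝ := (((h + 1) / 2 : ℕ) : ℝ) with hg
    set L : ℝ := (Nat.log 2 ((h + 1) / 2 - 1) : ℝ) with hL
    have hL0 : 0 ≤ L := by positivity
    rw [hlog']
    push_cast
    rcases r with _ | r
    · have hi := ih 0
      simp only [pow_zero, div_one, CharP.cast_eq_zero, mul_zero, zero_add] at hi ⊢
      have e1 : (c1 : ℝ) * (Ti + N + 4 ^ l) ≤ c1 * (g * 4 ^ l + c3 * 4 ^ l + 4 ^ l) := by
        apply mul_le_mul_of_nonneg_left _ hc1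
        linarith
      have e2 : 5 * g ≤ 4 * h := by linarith
      have e3 : (c1 : ℝ) * (5 * g) ≤ c1 * (4 * h) := mul_le_mul_of_nonneg_left e2 hc1
      have e4 : (4 : ℝ) ^ l * (c1 * (g + c3 + 1) + (4 * c1 * g +
          (c1 * (c3 + 1) + 2 * c1 + 4 * c2) * (L + 1))) ≤ (4 : ℝ) ^ l * (4 * c1 * h +
          (c1 * (c3 + 1) + 2 * c1 + 4 * c2) * (L + 1 + 1)) := by
        apply mul_le_mul_of_nonneg_left _ hp.le
        nlinarith
      nlinarith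
    · have hi := ih r
      have e1 : (c1 : ℝ) * (Ti + N + 4 ^ l) ≤ c1 * (2 * T + c3 * 4 ^ l + 4 ^ l) := by
        apply mul_le_mul_of_nonneg_left _ hc1
        linarith
      have hp2 : (1 : ℝ) ≤ 2 ^ r := one_le_pow₀ (by norm_num)
      have e2 : g / 2 ^ r ≤ (h : ℝ) / 2 ^ (r + 1) + 1 / 2 := by
        rw [div_add' _ _ _ (by positivity), div_le_div_iff₀ (by positivity) (by positivity),
          pow_succ]
        nlinarith
      have e3 : 4 * (c1 : ℝ) * (g / 2 ^ r) ≤ 4 * c1 * ((h : ℝ) / 2 ^ (r + 1) + 1 / 2) :=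
        mul_le_mul_of_nonneg_left e2 (by positivity)
      have e4 : (4 : ℝ) ^ l * (c1 * (c3 + 1) + (4 * c1 * (g / 2 ^ r) +
          (c1 * (c3 + 1) + 2 * c1 + 4 * c2) * (L + 1))) ≤
          (4 : ℝ) ^ l * (4 * c1 * ((h : ℝ) / 2 ^ (r + 1)) +
          (c1 * (c3 + 1) + 2 * c1 + 4 * c2) * (L + 1 + 1)) := by
        apply mul_le_mul_of_nonneg_left _ hp.le
        nlinarith
      push_cast
      calc (c1 : ℝ) * (Ti + N + 4 ^ l) + t2
          ≤ c1 * (2 * T + c3 * 4 ^ l + 4 ^ l) + ((2 * c1 * r + 2 * c1 + 2 * c2) * T +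
            (4 : ℝ) ^ l * (4 * c1 * (g / 2 ^ r) +
              (c1 * (c3 + 1) + 2 * c1 + 4 * c2) * (L + 1))) := add_le_add e1 hi
        _ = (2 * c1 * (r + 1) + 2 * c1 + 2 * c2) * T + (4 : ℝ) ^ l * (c1 * (c3 + 1) +
            (4 * c1 * (g / 2 ^ r) + (c1 * (c3 + 1) + 2 * c1 + 4 * c2) * (L + 1))) := by ring
        _ ≤ _ := by linarith

/-- The constant of the final bound. -/
def costConst (c1 c2 c3 : ℕ) : ℕ := c1 * (c3 + 1) + 8 * c1 + 6 * c2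

theorem Tot.bound {l T c1 c2 c3 N : ℕ} (hN : N ≤ c3 * 4 ^ l) {h t : ℕ} (hl : h ≤ l)
    (ht : Tot l T c1 c2 N h t) (r : ℕ) :
    (t : ℝ) ≤ (costConst c1 c2 c3 : ℕ) * (((r : ℝ) + 1) * T + (4 : ℝ) ^ l *
      ((l : ℝ) / 2 ^ r + Nat.log 2 (l + 1) + 1)) := by
  have h1 := ht.le hN r
  have hc1 : (0 : ℝ) ≤ c1 := by positivity
  have hc2 : (0 : ℝ) ≤ c2 := by positivity
  have hc3 : (0 : ℝ) ≤ c3 := by positivity
  have hT : (0 : ℝ) ≤ T := by positivity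
  have hr : (0 : ℝ) ≤ r := by positivity
  have hp : (0 : ℝ) < 4 ^ l := by positivity
  have hlog : (Nat.log 2 (h - 1) : ℝ) ≤ Nat.log 2 (l + 1) := by
    have : Nat.log 2 (h - 1) ≤ Nat.log 2 (l + 1) := Nat.log_mono_right (by omega)
    exact_mod_cast this
  have hdiv : (h : ℝ) / 2 ^ r ≤ (l : ℝ) / 2 ^ r := by
    have : (h : ℝ) ≤ l := by exact_mod_cast hl
    exact div_le_div_of_nonneg_right this (by positivity)
  have hlr : (0 : ℝ) ≤ (l : ℝ) / 2 ^ r := by positivity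
  set A : ℝ := ((costConst c1 c2 c3 : ℕ) : ℝ) with hA
  have hA' : A = c1 * (c3 + 1) + 8 * c1 + 6 * c2 := by
    rw [hA, costConst]
    push_cast
    ring
  have hcc : (0 : ℝ) ≤ c1 * (c3 + 1) := by positivity
  have e1 : (2 * c1 * r + 2 * c1 + 2 * c2) * T ≤ A * (((r : ℝ) + 1) * T) := by
    have e2 : (2 * c1 * r + 2 * c1 + 2 * c2 : ℝ) ≤ A * (r + 1) := by
      rw [hA']
      nlinarith [mul_nonneg hc1 hr, mul_nonneg hc2 hr, mul_nonneg hcc hr]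
    calc (2 * c1 * r + 2 * c1 + 2 * c2) * (T : ℝ) ≤ A * (r + 1) * T :=
          mul_le_mul_of_nonneg_right e2 hT
      _ = _ := by ring
  have e3 : 4 * c1 * ((h : ℝ) / 2 ^ r) ≤ A * ((l : ℝ) / 2 ^ r) := by
    have e4 : (4 * c1 : ℝ) ≤ A := by rw [hA']; nlinarith
    calc 4 * c1 * ((h : ℝ) / 2 ^ r) ≤ 4 * c1 * ((l : ℝ) / 2 ^ r) :=
          mul_le_mul_of_nonneg_left hdiv (by positivity)
      _ ≤ _ := mul_le_mul_of_nonneg_right e4 hlr
  have e5 : (c1 * (c3 + 1) + 2 * c1 + 4 * c2) * ((Nat.log 2 (h - 1) : ℝ) + 1) ≤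
      A * ((Nat.log 2 (l + 1) : ℝ) + 1) := by
    have e6 : (c1 * (c3 + 1) + 2 * c1 + 4 * c2 : ℝ) ≤ A := by rw [hA']; nlinarith
    have e7 : (0 : ℝ) ≤ (Nat.log 2 (h - 1) : ℝ) := by positivity
    apply mul_le_mul e6 (by linarith) (by positivity)
    rw [hA']
    positivity
  calc (t : ℝ) ≤ _ := h1
    _ ≤ A * (((r : ℝ) + 1) * T) + (4 : ℝ) ^ l * (A * ((l : ℝ) / 2 ^ r) +
        A * ((Nat.log 2 (l + 1) : ℝ) + 1)) := by
        apply add_le_add e1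
        apply mul_le_mul_of_nonneg_left _ hp.le
        linarith
    _ = _ := by ring

/-- From the cost of the main loop and `c4 * (4 ^ l + N)` for the rest to `Bound`. -/
theorem Tot.toBound {n1 n2 tA tB c1 c2 c3 c4 N t : ℕ} (hN : N ≤ c3 * 4 ^ H784.ex n1 n2)
    (ht : Tot (H784.ex n1 n2) tA c1 c2 N (H784.ex n1 n2) t)
    (hB : tB ≤ c4 * (t + 4 ^ H784.ex n1 n2 + N)) :
    H784.Bound (c4 * (costConst c1 c2 c3 + c3 + 1) : ℕ) n1 n2 tA tB := by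
  intro r
  have h1 := ht.bound hN le_rfl r
  set l := H784.ex n1 n2 with hl
  have hp : (0 : ℝ) < 4 ^ l := by positivity
  have hN' : (N : ℝ) ≤ c3 * 4 ^ l := by exact_mod_cast hN
  have hB' : (tB : ℝ) ≤ c4 * (t + 4 ^ l + N) := by exact_mod_cast hB
  have hX : (4 : ℝ) ^ l ≤ ((r : ℝ) + 1) * tA + (4 : ℝ) ^ l *
      ((l : ℝ) / 2 ^ r + Nat.log 2 (l + 1) + 1) := by
    have e1 : (0 : ℝ) ≤ ((r : ℝ) + 1) * tA := by positivity
    have e2 : (0 : ℝ) ≤ (4 : ℝ) ^ l * ((l : ℝ) / 2 ^ r + Nat.log 2 (l + 1)) := by positivity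
    nlinarith
  set X : ℝ := ((r : ℝ) + 1) * tA + (4 : ℝ) ^ l *
      ((l : ℝ) / 2 ^ r + Nat.log 2 (l + 1) + 1) with hXdef
  have hc3 : (0 : ℝ) ≤ c3 := by positivity
  have hc4 : (0 : ℝ) ≤ c4 := by positivity
  calc (tB : ℝ) ≤ c4 * (t + 4 ^ l + N) := hB'
    _ ≤ c4 * ((costConst c1 c2 c3 : ℕ) * X + X + c3 * X) := by
        apply mul_le_mul_of_nonneg_left _ hc4
        have : (c3 : ℝ) * 4 ^ l ≤ c3 * X := mul_le_mul_of_nonneg_left hX hc3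
        linarith
    _ = _ := by
        push_cast
        ring

end Vale.Agent.P338.R2.H778
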