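import Mathlib

namespace Vale.Agent.P338.R2.H778

/-- Big-endian value of a bit list. -/
def val (l : List Bool) : ℕ := l.foldl (fun a b => 2 * a + b.toNat) 0

/-- Big-endian binary representation of `z mod 2 ^ w` on `w` bits. -/
def bits : ℕ → ℕ → List Bool
  | 0, _ => []
  | w + 1, z => bits w (z / 2) ++ [decide (z % 2 = 1)]

@[simp] theorem length_bits (w z : ℕ) : (bits w z).length = w := by
  induction w generalizing z with
  | zero => rfl
  | succ w ih => simp [bits, ih]

@[simp] theorem val_nil : val [] = 0 := rfl

theorem foldl_val (l : List Bool) (a : ℕ) :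
    l.foldl (fun a b => 2 * a + b.toNat) a = a * 2 ^ l.length + val l := by
  induction l generalizing a with
  | nil => simp [val]
  | cons b l ih =>
    have h := ih (2 * 0 + b.toNat)
    have h' : val (b :: l) = (2 * 0 + b.toNat) * 2 ^ l.length + val l := h
    rw [List.foldl_cons, List.length_cons, ih, h']
    ring

theorem val_append (l l' : List Bool) : val (l ++ l') = val l * 2 ^ l'.length + val l' := by
  rw [val, List.foldl_append, foldl_val]
  rfl

@[simp] theorem val_singleton (b : Bool) : val [b] = b.toNat := by simp [val]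

theorem val_cons (b : Bool) (l : List Bool) : val (b :: l) = b.toNat * 2 ^ l.length + val l := by
  have := val_append [b] l
  simpa using this

theorem val_lt (l : List Bool) : val l < 2 ^ l.length := by
  induction l with
  | nil => simp
  | cons b l ih =>
    rw [val_cons, List.length_cons, pow_succ]
    have h1 : b.toNat ≤ 1 := Bool.toNat_le b
    have h2 : b.toNat * 2 ^ l.length ≤ 1 * 2 ^ l.length := Nat.mul_le_mul_right _ h1
    omega

theorem val_bits (w z : ℕ) : val (bits w z) = z % 2 ^ w := by
  induction w generalizing z with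
  | zero => simp [bits, Nat.mod_one]
  | succ w ih =>
    rw [bits, val_append, ih, val_singleton]
    have h1 : (decide (z % 2 = 1)).toNat = z % 2 := by
      rcases Nat.mod_two_eq_zero_or_one z with h | h <;> simp [h]
    rw [h1]
    simp only [List.length_singleton, pow_one]
    rw [pow_succ, mul_comm (2 ^ w) 2, Nat.mod_mul]
    ring

theorem val_bits_of_lt {w z : ℕ} (h : z < 2 ^ w) : val (bits w z) = z := by
  rw [val_bits, Nat.mod_eq_of_lt h]

theorem val_inj {l l' : List Bool} (h : l.length = l'.length) (hv : val l = val l') : l = l' := by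
  induction l generalizing l' with
  | nil =>
    cases l' with
    | nil => rfl
    | cons _ _ => simp at h
  | cons b l ih =>
    cases l' with
    | nil => simp at h
    | cons b' l' =>
      have hl : l.length = l'.length := by simpa using h
      rw [val_cons, val_cons, hl] at hv
      have h1 := val_lt l
      have h2 := val_lt l'
      rw [hl] at h1
      have hb : b = b' := by
        cases b <;> cases b' <;> simp at hv ⊢ <;> omega
      subst hb
      have : val l = val l' := by omega
      rw [ih hl this]

theorem bits_val (l : List Bool) : bits l.length (val l) = l := by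
  apply val_inj (by simp)
  rw [val_bits, Nat.mod_eq_of_lt (val_lt l)]

theorem bits_mod (w z : ℕ) : bits w (z % 2 ^ w) = bits w z := by
  apply val_inj (by simp)
  rw [val_bits, val_bits, Nat.mod_mod]

theorem bits_add (w w' z : ℕ) : bits (w + w') z = bits w (z / 2 ^ w') ++ bits w' z := by
  apply val_inj (by simp)
  rw [val_append, val_bits, val_bits, val_bits, length_bits, add_comm w w', pow_add, Nat.mod_mul]
  ring

theorem bits_add' (w w' y z : ℕ) (hz : z < 2 ^ w') :
    bits (w + w') (y * 2 ^ w' + z) = bits w y ++ bits w' z := by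
  rw [bits_add, ← bits_mod w' (y * 2 ^ w' + z)]
  have hp : 0 < 2 ^ w' := by positivity
  rw [mul_comm, Nat.mul_add_div hp, Nat.mul_add_mod, Nat.div_eq_of_lt hz, Nat.mod_eq_of_lt hz,
    add_zero]

theorem bits_zero (w : ℕ) : bits w 0 = List.replicate w false := by
  apply val_inj (by simp)
  rw [val_bits, Nat.zero_mod]
  induction w with
  | zero => simp
  | succ w ih => rw [List.replicate_succ, val_cons, ← ih]; simp

/-- `n` slots of `w` bits, first slot first. -/
def slots (w n : ℕ) (f : ℕ → ℕ) : List Bool := (List.range n).flatMap (fun i => bits w (f i))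

/-- The number with base `2 ^ w` digits `f 0, …, f (n - 1)`, most significant digit first. -/
def num (w n : ℕ) (f : ℕ → ℕ) : ℕ := ∑ i ∈ Finset.range n, f i * 2 ^ (w * (n - 1 - i))

@[simp] theorem slots_zero (w : ℕ) (f : ℕ → ℕ) : slots w 0 f = [] := rfl

theorem slots_succ (w n : ℕ) (f : ℕ → ℕ) : slots w (n + 1) f = slots w n f ++ bits w (f n) := by
  simp [slots, List.range_succ]

@[simp] theorem length_slots (w n : ℕ) (f : ℕ → ℕ) : (slots w n f).length = w * n := by
  induction n with
  | zero => simp
  | succ n ih => rw [slots_succ, List.length_append, ih, length_bits]; ring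

theorem num_succ (w n : ℕ) (f : ℕ → ℕ) : num w (n + 1) f = num w n f * 2 ^ w + f n := by
  rw [num, Finset.sum_range_succ, num, Finset.sum_mul]
  congr 1
  · apply Finset.sum_congr rfl
    intro i hi
    rw [Finset.mem_range] at hi
    rw [mul_assoc, ← pow_add]
    congr 2
    have : n + 1 - 1 - i = (n - 1 - i) + 1 := by omega
    rw [this]
    ring
  · simp

theorem slots_eq_bits (w n : ℕ) (f : ℕ → ℕ) (hf : ∀ i < n, f i < 2 ^ w) :
    slots w n f = bits (w * n) (num w n f) := by
  induction n with
  | zero => simp [bits]
  | succ n ih =>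
    rw [slots_succ, ih (fun i hi => hf i (by omega)), num_succ, Nat.mul_succ,
      bits_add' _ _ _ _ (hf n (by omega))]

theorem num_lt (w n : ℕ) (f : ℕ → ℕ) (hf : ∀ i < n, f i < 2 ^ w) : num w n f < 2 ^ (w * n) := by
  induction n with
  | zero => simp [num]
  | succ n ih =>
    have h1 := ih (fun i hi => hf i (by omega))
    have h2 := hf n (by omega)
    rw [num_succ, Nat.mul_succ, pow_add]
    have h3 : 0 < 2 ^ w := by positivity
    nlinarith

theorem val_slots (w n : ℕ) (f : ℕ → ℕ) (hf : ∀ i < n, f i < 2 ^ w) :
    val (slots w n f) = num w n f := by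
  rw [slots_eq_bits w n f hf, val_bits_of_lt (num_lt w n f hf)]

theorem slots_congr {w n : ℕ} {f g : ℕ → ℕ} (h : ∀ i < n, f i = g i) :
    slots w n f = slots w n g := by
  unfold slots
  apply List.flatMap_congr
  intro i hi
  rw [h i (List.mem_range.1 hi)]

theorem slots_add (w m n : ℕ) (f : ℕ → ℕ) :
    slots w (m + n) f = slots w m f ++ slots w n (fun i => f (m + i)) := by
  induction n with
  | zero => simp
  | succ n ih => rw [← add_assoc, slots_succ, ih, slots_succ, List.append_assoc]

theorem slots_mul (w m n : ℕ) (f : ℕ → ℕ) :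
    slots w (m * n) f = (List.range m).flatMap (fun i => slots w n (fun j => f (i * n + j))) := by
  induction m with
  | zero => simp
  | succ m ih => rw [Nat.succ_mul, slots_add, ih, List.range_succ]; simp

/-- The convolution. -/
def conv (f g : ℕ → ℕ) (c : ℕ) : ℕ := ∑ i ∈ Finset.range (c + 1), f i * g (c - i)

theorem num_mul (w n : ℕ) (hn : 0 < n) (f g : ℕ → ℕ) (hf : ∀ i, n ≤ i → f i = 0)
    (hg : ∀ i, n ≤ i → g i = 0) :
    num w n f * num w n g = num w (2 * n - 1) (conv f g) := by
  unfold num
  rw [Finset.sum_mul_sum]
  have h1 : ∀ i ∈ Finset.range n, ∀ j ∈ Finset.range n,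
      f i * 2 ^ (w * (n - 1 - i)) * (g j * 2 ^ (w * (n - 1 - j))) =
      f i * g j * 2 ^ (w * (2 * n - 1 - 1 - (i + j))) := by
    intro i hi j hj
    rw [Finset.mem_range] at hi hj
    have : 2 * n - 1 - 1 - (i + j) = (n - 1 - i) + (n - 1 - j) := by omega
    rw [this, mul_add, pow_add]
    ring
  rw [Finset.sum_congr rfl (fun i hi => Finset.sum_congr rfl (h1 i hi))]
  have h2 : ∀ c ∈ Finset.range (2 * n - 1), conv f g c * 2 ^ (w * (2 * n - 1 - 1 - c)) =
      ∑ i ∈ Finset.range n, ∑ j ∈ Finset.range n,
        if i + j = c then f i * g j * 2 ^ (w * (2 * n - 1 - 1 - (i + j))) else 0 := by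
    intro c hc
    rw [Finset.mem_range] at hc
    have h3 : ∀ i ∈ Finset.range n, (∑ j ∈ Finset.range n,
        if i + j = c then f i * g j * 2 ^ (w * (2 * n - 1 - 1 - (i + j))) else 0) =
        if i ≤ c then f i * g (c - i) * 2 ^ (w * (2 * n - 1 - 1 - c)) else 0 := by
      intro i hi
      by_cases hic : i ≤ c
      · rw [if_pos hic]
        by_cases hcn : c - i < n
        · rw [Finset.sum_eq_single (c - i)]
          · have : i + (c - i) = c := by omega
            rw [this, if_pos rfl]
          · intro j _ hj
            rw [if_neg (by omega)]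
          · intro h
            exact absurd (Finset.mem_range.2 hcn) h
        · rw [hg (c - i) (by omega)]
          rw [Finset.sum_eq_zero]
          · simp
          · intro j hj
            rw [Finset.mem_range] at hj
            rw [if_neg (by omega)]
      · rw [if_neg hic]
        apply Finset.sum_eq_zero
        intro j _
        rw [if_neg (by omega)]
    rw [Finset.sum_congr rfl h3, ← Finset.sum_filter, conv, Finset.sum_mul]
    symm
    apply Finset.sum_subset
    · intro i hi
      simp only [Finset.mem_filter, Finset.mem_range] at hi ⊢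
      omega
    · intro i hi hi'
      simp only [Finset.mem_filter, Finset.mem_range, not_and] at hi hi'
      rw [hf i (by by_contra hcon; exact hi' (by omega) (by omega))]
      simp
  rw [Finset.sum_congr rfl h2]
  symm
  rw [Finset.sum_comm]
  apply Finset.sum_congr rfl
  intro i hi
  rw [Finset.sum_comm]
  apply Finset.sum_congr rfl
  intro j hj
  rw [Finset.mem_range] at hi hj
  rw [Finset.sum_ite_eq, if_pos (Finset.mem_range.2 (by omega))]

/-- Big-endian product of two numbers with `n` slots when no slot of the product overflows: slot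
`0` is zero and slot `c + 1` is the value `c` of the convolution. -/
theorem bits_mul_slots (w n : ℕ) (hn : 0 < n) (f g : ℕ → ℕ) (hf : ∀ i, n ≤ i → f i = 0)
    (hg : ∀ i, n ≤ i → g i = 0) (hf' : ∀ i < n, f i < 2 ^ w) (hg' : ∀ i < n, g i < 2 ^ w)
    (hc : ∀ c < 2 * n - 1, conv f g c < 2 ^ w) :
    bits (2 * (w * n)) (val (slots w n f) * val (slots w n g)) =
      bits w 0 ++ slots w (2 * n - 1) (conv f g) := by
  rw [val_slots w n f hf', val_slots w n g hg', num_mul w n hn f g hf hg,
    slots_eq_bits w (2 * n - 1) _ hc]
  have h1 : 2 * (w * n) = w + w * (2 * n - 1) := by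
    obtain ⟨m, rfl⟩ : ∃ m, n = m + 1 := ⟨n - 1, by omega⟩
    have : 2 * (m + 1) - 1 = 2 * m + 1 := by omega
    rw [this]
    ring
  rw [h1]
  have h2 := bits_add' w (w * (2 * n - 1)) 0 (num w (2 * n - 1) (conv f g))
    (num_lt _ _ _ hc)
  rw [zero_mul, zero_add] at h2
  exact h2

end Vale.Agent.P338.R2.H778
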