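import Vale.Agent.P338.R2.H778.Dft
import Vale.Agent.P338.R2.H778.Bits

namespace Vale.Agent.P338.R2.H778

/-- Digit `d` row coefficients placed at the start of the rows `d < D` of length `R`. -/
def spread (R D : ℕ) (γ : ℕ → ℕ) (j : ℕ) : ℕ := if j % R = 0 ∧ j / R < D then γ (j / R) else 0

theorem spread_mul (R D : ℕ) (hR : 0 < R) (γ : ℕ → ℕ) (d : ℕ) (hd : d < D) :
    spread R D γ (d * R) = γ d := by
  rw [spread, Nat.mul_mod_left, Nat.mul_div_cancel _ hR, if_pos ⟨rfl, hd⟩]

/-- Convolution with a spread kernel acts on rows. -/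
theorem conv_spread (R D : ℕ) (γ : ℕ → ℕ) (f : ℕ → ℕ) (ρ m : ℕ) (hm : m < R) :
    conv f (spread R D γ) (ρ * R + m) =
      ∑ d ∈ Finset.range D, if d ≤ ρ then f ((ρ - d) * R + m) * γ d else 0 := by
  have hR : 0 < R := by omega
  unfold conv
  rw [← Finset.sum_filter]
  symm
  refine Finset.sum_of_injOn (fun d => (ρ - d) * R + m) ?_ ?_ ?_ ?_
  · intro a ha b hb hab
    simp only [Finset.coe_filter, Finset.mem_range, Set.mem_ofPred_eq] at ha hb
    have h1 : (ρ - a) * R = (ρ - b) * R := by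
      simpa using hab
    have h2 := Nat.eq_of_mul_eq_mul_right hR h1
    omega
  · intro a ha
    simp only [Finset.coe_filter, Finset.mem_range, Set.mem_ofPred_eq, Finset.coe_range,
      Set.mem_Iio] at ha ⊢
    have : (ρ - a) * R ≤ ρ * R := Nat.mul_le_mul_right _ (by omega)
    omega
  · intro i hi hni
    rw [Finset.mem_range] at hi
    have hz : spread R D γ (ρ * R + m - i) = 0 := by
      rw [spread, if_neg]
      rintro ⟨h1, h2⟩
      apply hni
      obtain ⟨e, he⟩ := Nat.dvd_of_mod_eq_zero h1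
      rw [he, Nat.mul_div_cancel_left _ hR] at h2
      have h3 : ρ * R + m = i + R * e := by omega
      have h4 : e ≤ ρ := by
        by_contra hc
        push Not at hc
        have : (ρ + 1) * R ≤ e * R := Nat.mul_le_mul_right _ hc
        have h5 : (ρ + 1) * R = ρ * R + R := by ring
        have h6 : e * R = R * e := by ring
        omega
      refine ⟨e, ?_, ?_⟩
      · simp only [Finset.coe_filter, Finset.mem_range, Set.mem_ofPred_eq]
        exact ⟨h2, h4⟩
      · have h7 : (ρ - e) * R + R * e = ρ * R := by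
          rw [mul_comm R e, ← add_mul]
          congr 1
          omega
        show (ρ - e) * R + m = i
        omega
    rw [hz, mul_zero]
  · intro d hd
    simp only [Finset.mem_filter, Finset.mem_range] at hd
    have h7 : (ρ - d) * R + d * R = ρ * R := by
      rw [← add_mul]
      congr 1
      omega
    have : ρ * R + m - ((ρ - d) * R + m) = d * R := by omega
    rw [this, spread_mul R D hR γ d hd.1]

/-- The rows `≥ L` of a block of `4 L` rows whose first `Q ≤ L` rows are filled. -/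
theorem conv_block (L Q R : ℕ) (hQ : Q ≤ L) (γ f : ℕ → ℕ) (φ : ℕ → ℕ → ℕ) (k q m : ℕ)
    (hq : q < L) (hm : m < R)
    (hf : ∀ k r, r < 4 * L → f ((4 * L * k + r) * R + m) = if r < Q then φ k r else 0) :
    conv f (spread R (2 * L) γ) ((4 * L * k + (L + q)) * R + m) =
      ∑ x ∈ Finset.range Q, φ k x * γ (L + q - x) := by
  rw [conv_spread R (2 * L) γ f _ m hm]
  have h1 : ∀ d ∈ Finset.range (2 * L), (if d ≤ 4 * L * k + (L + q) then
      f ((4 * L * k + (L + q) - d) * R + m) * γ d else 0) =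
      if d ≤ L + q ∧ L + q - d < Q then φ k (L + q - d) * γ d else 0 := by
    intro d hd
    rw [Finset.mem_range] at hd
    by_cases hdq : d ≤ L + q
    · rw [if_pos (by omega)]
      have : 4 * L * k + (L + q) - d = 4 * L * k + (L + q - d) := by omega
      rw [this, hf _ _ (by omega)]
      by_cases h : L + q - d < Q
      · rw [if_pos h, if_pos ⟨hdq, h⟩]
      · rw [if_neg h, if_neg (fun h' => h h'.2), zero_mul]
    · rw [if_neg (fun h' : _ ∧ _ => hdq h'.1)]
      rcases Nat.eq_zero_or_pos k with hk | hk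
      · subst hk
        rw [if_neg (by omega)]
      · obtain ⟨k', rfl⟩ : ∃ k', k = k' + 1 := ⟨k - 1, by omega⟩
        have h2 : 4 * L * (k' + 1) = 4 * L * k' + 4 * L := by ring
        have h3 : 4 * L * (k' + 1) + (L + q) - d = 4 * L * k' + (5 * L + q - d) := by omega
        have h4 : f ((4 * L * (k' + 1) + (L + q) - d) * R + m) = 0 := by
          rw [h3, hf k' (5 * L + q - d) (by omega), if_neg (by omega)]
        rw [h4]
        simp
  rw [Finset.sum_congr rfl h1, ← Finset.sum_filter]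
  refine Finset.sum_bij' (fun d _ => L + q - d) (fun x _ => L + q - x) ?_ ?_ ?_ ?_ ?_
  · intro d hd
    simp only [Finset.mem_filter, Finset.mem_range] at hd ⊢
    omega
  · intro x hx
    simp only [Finset.mem_filter, Finset.mem_range] at hx ⊢
    omega
  · intro d hd
    simp only [Finset.mem_filter, Finset.mem_range] at hd ⊢
    omega
  · intro x hx
    simp only [Finset.mem_range] at hx ⊢
    omega
  · intro d hd
    simp only [Finset.mem_filter, Finset.mem_range] at hd ⊢
    have : L + q - (L + q - d) = d := by omega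
    rw [this]

/-- A crude bound for the convolution with a spread kernel. -/
theorem conv_spread_lt (R D : ℕ) (hD : 0 < D) (γ : ℕ → ℕ) (f : ℕ → ℕ) (a b : ℕ)
    (hf : ∀ i, f i < a) (hγ : ∀ d < D, γ d < b) (c : ℕ) (hR : 0 < R) :
    conv f (spread R D γ) c < D * (a * b) := by
  have hc : c = (c / R) * R + c % R := by rw [mul_comm]; exact (Nat.div_add_mod c R).symm
  rw [hc, conv_spread R D γ f _ _ (Nat.mod_lt _ hR)]
  have : ∑ d ∈ Finset.range D, (if d ≤ c / R then f ((c / R - d) * R + c % R) * γ d else 0) <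
      ∑ d ∈ Finset.range D, a * b := by
    apply Finset.sum_lt_sum_of_nonempty (by simpa using hD.ne')
    intro d hd
    rw [Finset.mem_range] at hd
    have ha : 0 < a := lt_of_le_of_lt (Nat.zero_le _) (hf 0)
    have hb : 0 < b := lt_of_le_of_lt (Nat.zero_le _) (hγ d hd)
    split_ifs
    · exact Nat.mul_lt_mul'' (hf _) (hγ d hd)
    · positivity
  simpa using this

/-- The chirp `2 ^ (d ^ 2)`. -/
def chirp (L d : ℕ) : ℕ := 2 ^ (d ^ 2 % (2 * L))

theorem chirp_lt (L d : ℕ) (hL : 0 < L) : chirp L d < 2 ^ (2 * L) :=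
  Nat.pow_lt_pow_right (by norm_num) (Nat.mod_lt _ (by omega))

theorem two_zpow_congr (L : ℕ) (hL : 0 < L) (a b : ℤ) (h : a ≡ b [ZMOD (2 * L : ℕ)]) :
    (two L hL) ^ a = (two L hL) ^ b := by
  obtain ⟨c, hc⟩ := h.dvd
  have : b = a + (2 * L : ℕ) * c := by linarith
  rw [this, zpow_add, zpow_mul, zpow_natCast, two_zpow_two_mul, one_zpow, mul_one]

theorem two_pow_cast (L : ℕ) (hL : 0 < L) (e : ℕ) :
    (((2 ^ e : ℕ)) : ZMod (Fm L)) = ((two L hL) ^ (e : ℤ) : (ZMod (Fm L))ˣ) := by
  rw [zpow_natCast, Units.val_pow_eq_pow_val, two_val]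
  push_cast
  rfl

theorem chirp_cast (L : ℕ) (hL : 0 < L) (hL2 : 2 ∣ L) (t : ℤ) (d : ℕ) (hd : (d : ℤ) = L + t) :
    ((chirp L d : ℕ) : ZMod (Fm L)) = ((two L hL) ^ (t ^ 2) : (ZMod (Fm L))ˣ) := by
  rw [chirp, two_pow_cast L hL]
  congr 1
  apply two_zpow_congr
  have h1 : (((d ^ 2 % (2 * L) : ℕ)) : ℤ) ≡ (d : ℤ) ^ 2 [ZMOD (2 * L : ℕ)] := by
    push_cast
    exact Int.mod_modEq _ _
  refine h1.trans ?_
  rw [hd]
  obtain ⟨c, hc⟩ := hL2
  refine Int.ModEq.symm ((Int.modEq_iff_dvd).2 ?_)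
  refine ⟨c + t, ?_⟩
  have : (L : ℤ) = 2 * c := by exact_mod_cast hc
  push_cast
  rw [this]
  ring

/-- Orthogonality with an integer exponent. -/
theorem sum_two_zpow (h : ℕ) (t : ℤ) (ht : t ≠ 0) (h1 : -(2 ^ h : ℤ) < t) (h2 : t < 2 ^ h) :
    ∑ q ∈ Finset.range (2 ^ h),
      (((two (2 ^ h) (by positivity)) ^ (2 * (q : ℤ) * t) : (ZMod (Fm (2 ^ h)))ˣ) :
        ZMod (Fm (2 ^ h))) = 0 := by
  have hL : 0 < 2 ^ h := by positivity
  set s : ℕ := (t % (2 ^ h : ℤ)).toNat with hs
  have hpos : (0 : ℤ) < 2 ^ h := by positivity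
  have hs0 : (s : ℤ) = t % (2 ^ h : ℤ) := Int.toNat_of_nonneg (Int.emod_nonneg _ hpos.ne')
  have hslt : s < 2 ^ h := by
    have := Int.emod_lt_of_pos t hpos
    rw [← hs0] at this
    exact_mod_cast this
  have hspos : 0 < s := by
    rcases Nat.eq_zero_or_pos s with h0 | h0
    · exfalso
      rw [h0] at hs0
      have hd : (2 ^ h : ℤ) ∣ t := Int.dvd_of_emod_eq_zero hs0.symm
      obtain ⟨c, hc⟩ := hd
      have hc0 : c ≠ 0 := by
        rintro rfl
        simp at hc
        exact ht hc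
      rcases lt_or_gt_of_ne hc0 with hneg | hpos'
      · have : c ≤ -1 := by omega
        nlinarith
      · have : 1 ≤ c := by omega
        nlinarith
    · exact h0
  rw [← sum_two_pow h s hspos hslt]
  apply Finset.sum_congr rfl
  intro q _
  have h3 := two_pow_cast (2 ^ h) hL (2 * q * s)
  push_cast at h3
  rw [h3]
  congr 1
  apply two_zpow_congr
  have h4 : t ≡ s [ZMOD (2 ^ h : ℤ)] := by
    rw [hs0]
    exact (Int.mod_modEq _ _).symm
  obtain ⟨c, hc⟩ := h4.dvd
  refine (Int.modEq_iff_dvd).2 ⟨q * c, ?_⟩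
  push_cast
  have : (s : ℤ) = t + 2 ^ h * c := by linarith
  rw [this]
  ring

end Vale.Agent.P338.R2.H778
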