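import Vale.Agent.P338.R2.H778.Bits

namespace Vale.Agent.P338.R2.H778

/-- The multiplier `(2 ^ (24 L) - 1) / (2 ^ (2 L) + 1)`. -/
def kap (L : ℕ) : ℕ := (2 ^ (24 * L) - 1) / (2 ^ (2 * L) + 1)

theorem kap_spec (L : ℕ) : kap L * (2 ^ (2 * L) + 1) = 2 ^ (24 * L) - 1 := by
  apply Nat.div_mul_cancel
  have h1 : (2 ^ (2 * L) + 1) ∣ 2 ^ (4 * L) - 1 := by
    have : 2 ^ (4 * L) - 1 = (2 ^ (2 * L) + 1) * (2 ^ (2 * L) - 1) := by
      have h : 2 ^ (4 * L) = 2 ^ (2 * L) * 2 ^ (2 * L) := by rw [← pow_add]; congr 1; ring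
      rw [h]
      obtain ⟨a, ha⟩ : ∃ a, 2 ^ (2 * L) = a + 1 := ⟨2 ^ (2 * L) - 1, by
        have : 0 < 2 ^ (2 * L) := by positivity
        omega⟩
      rw [ha, Nat.add_sub_cancel]
      have : (a + 1) * (a + 1) = (a + 1 + 1) * a + 1 := by ring
      rw [this, Nat.add_sub_cancel]
    rw [this]
    exact Dvd.intro _ rfl
  have h2 : 2 ^ (24 * L) = (2 ^ (4 * L)) ^ 6 := by rw [← pow_mul]; congr 1; ring
  rw [h2]
  have h3 : (2 ^ (4 * L) - 1) ∣ (2 ^ (4 * L)) ^ 6 - 1 ^ 6 := Nat.sub_dvd_pow_sub_pow _ _ _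
  rw [one_pow] at h3
  exact h1.trans h3

/-- Exact extraction of a word from a multiple of `kap L`. -/
theorem extract (L P ρ e Z d : ℕ) (hL : 2 ≤ L) (hρ : 2 ^ ρ = 2 * P) (hP : P ≤ L)
    (he : e ≤ 4 * L) (hZ : Z < 2 ^ (16 * L)) (hd : d < 2 ^ L)
    (hmod : Z * 2 ^ e ≡ P * (2 * d + 1) [MOD 2 ^ (2 * L) + 1]) :
    (kap L * Z / 2 ^ (22 * L + ρ - e)) % 2 ^ L = d := by
  have hK := kap_spec L
  have hPpos : 0 < P := by
    rcases Nat.eq_zero_or_pos P with h | h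
    · subst h
      simp at hρ
    · exact h
  have hL2 : 2 * L ≤ 2 ^ L := by
    clear * - hL
    induction L, hL using Nat.le_induction with
    | base => norm_num
    | succ n hn ih => rw [pow_succ]; omega
  have hρL : ρ ≤ L := by
    have : 2 ^ ρ ≤ 2 ^ L := by rw [hρ]; omega
    exact (Nat.pow_le_pow_iff_right (by norm_num)).1 this
  -- abbreviations
  set F : ℕ := 2 ^ (2 * L) + 1 with hF
  set A : ℕ := Z * 2 ^ e with hA
  set r : ℕ := P * (2 * d + 1) with hr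
  have hb : 2 ^ (2 * L) = 2 ^ L * 2 ^ L := by rw [← pow_add]; congr 1; ring
  have hr1 : r ≤ 2 ^ (2 * L) := by
    rw [hr, hb]
    have h1 : 2 * d + 1 ≤ 2 * 2 ^ L := by omega
    calc P * (2 * d + 1) ≤ L * (2 * 2 ^ L) := Nat.mul_le_mul hP h1
      _ = (2 * L) * 2 ^ L := by ring
      _ ≤ 2 ^ L * 2 ^ L := Nat.mul_le_mul_right _ hL2
  have hrF : r < F := by omega
  have hAr : A % F = r := by
    rw [hmod, Nat.mod_eq_of_lt hrF]
  set Q : ℕ := A / F with hQ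
  have hAQ : A = Q * F + r := by
    rw [← hAr, hQ, mul_comm]
    exact (Nat.div_add_mod A F).symm
  have hQ1 : Q < 2 ^ (18 * L) := by
    rw [hQ]
    apply Nat.div_lt_of_lt_mul
    have h1 : A < 2 ^ (16 * L) * 2 ^ (4 * L) := by
      rw [hA]
      have : 2 ^ e ≤ 2 ^ (4 * L) := Nat.pow_le_pow_right (by norm_num) he
      have h0 : 0 < 2 ^ e := by positivity
      calc Z * 2 ^ e < 2 ^ (16 * L) * 2 ^ e := Nat.mul_lt_mul_of_pos_right hZ h0
        _ ≤ _ := Nat.mul_le_mul_left _ this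
    have h2 : 2 ^ (16 * L) * 2 ^ (4 * L) = 2 ^ (2 * L) * 2 ^ (18 * L) := by
      rw [← pow_add, ← pow_add]
      congr 1
      ring
    rw [h2] at h1
    refine lt_of_lt_of_le h1 (Nat.mul_le_mul_right _ (by omega))
  have hG : 0 < 2 ^ (24 * L) := by positivity
  have hKF : kap L * F + 1 = 2 ^ (24 * L) := by omega
  have hKb : kap L * 2 ^ (2 * L) + kap L + 1 = 2 ^ (24 * L) := by
    rw [← hKF, hF]
    ring
  have hg : 2 ^ (24 * L) = 2 ^ (22 * L) * 2 ^ (2 * L) := by rw [← pow_add]; congr 1; ring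
  have hK22 : kap L + 1 ≤ 2 ^ (22 * L) := by
    by_contra hc
    push Not at hc
    have h1 : 2 ^ (22 * L) ≤ kap L := by omega
    have h2 : 2 ^ (22 * L) * 2 ^ (2 * L) ≤ kap L * 2 ^ (2 * L) := Nat.mul_le_mul_right _ h1
    omega
  -- the main identity
  have hU : kap L * A + Q = Q * 2 ^ (24 * L) + kap L * r := by
    rw [hAQ, ← hKF]
    ring
  have hM : 2 ^ (22 * L + ρ) = 2 ^ (22 * L) * (2 * P) := by rw [pow_add, hρ]
  -- lower bound
  have hlow : 2 ^ (22 * L) * (2 * P) * d + Q ≤ kap L * r := by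
    have hb0 : 0 < 2 ^ (2 * L) := by positivity
    apply Nat.le_of_mul_le_mul_right _ hb0
    have h1 : kap L * r * 2 ^ (2 * L) + r * (kap L + 1) = r * 2 ^ (24 * L) := by
      rw [← hKb]
      ring
    have h2 : r * (kap L + 1) ≤ r * 2 ^ (22 * L) := Nat.mul_le_mul_left _ hK22
    have h3 : r * 2 ^ (22 * L) * 2 ≤ P * 2 ^ (24 * L) := by
      rw [hg, hr, hb]
      have h4 : (2 * d + 1) * 2 ≤ 2 ^ L * 2 ^ L := by
        have h5 : (2 * d + 1) * 2 ≤ 4 * 2 ^ L := by omega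
        have h6 : 4 ≤ 2 ^ L := by
          calc 4 = 2 ^ 2 := by norm_num
            _ ≤ 2 ^ L := Nat.pow_le_pow_right (by norm_num) hL
        exact h5.trans (Nat.mul_le_mul_right _ h6)
      calc P * (2 * d + 1) * 2 ^ (22 * L) * 2 = P * (2 ^ (22 * L) * ((2 * d + 1) * 2)) := by ring
        _ ≤ P * (2 ^ (22 * L) * (2 ^ L * 2 ^ L)) :=
          Nat.mul_le_mul_left _ (Nat.mul_le_mul_left _ h4)
    have h7 : Q * 2 ^ (2 * L) * 2 ≤ 2 ^ (24 * L) := by
      have h8 : Q * 2 ^ (2 * L) ≤ 2 ^ (18 * L) * 2 ^ (2 * L) := Nat.mul_le_mul_right _ hQ1.le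
      have h9 : 2 ^ (18 * L) * 2 ^ (2 * L) * 2 ≤ 2 ^ (24 * L) := by
        rw [← pow_add, ← pow_succ]
        exact Nat.pow_le_pow_right (by norm_num) (by omega)
      omega
    have h10 : 2 ^ (24 * L) ≤ P * 2 ^ (24 * L) := Nat.le_mul_of_pos_left _ hPpos
    have h11 : (2 ^ (22 * L) * (2 * P) * d + Q) * 2 ^ (2 * L) =
        2 * P * d * 2 ^ (24 * L) + Q * 2 ^ (2 * L) := by
      rw [hg]
      ring
    have h12 : r * 2 ^ (24 * L) = 2 * P * d * 2 ^ (24 * L) + P * 2 ^ (24 * L) := by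
      rw [hr]
      ring
    rw [h11]
    omega
  have hup : kap L * r < 2 ^ (22 * L) * (2 * P) * (d + 1) := by
    have h1 : kap L * r < 2 ^ (22 * L) * r := by
      have : 0 < r := by rw [hr]; positivity
      exact Nat.mul_lt_mul_of_pos_right (by omega) this
    have h2 : r ≤ 2 * P * (d + 1) := by
      rw [hr]
      nlinarith
    calc kap L * r < 2 ^ (22 * L) * r := h1
      _ ≤ 2 ^ (22 * L) * (2 * P * (d + 1)) := Nat.mul_le_mul_left _ h2
      _ = _ := by ring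
  -- the quotient
  have hq : kap L * A / 2 ^ (22 * L + ρ) = Q * 2 ^ (2 * L - ρ) + d := by
    have h24 : 2 ^ (24 * L) = 2 ^ (22 * L + ρ) * 2 ^ (2 * L - ρ) := by
      rw [← pow_add]
      congr 1
      omega
    rw [hM] at h24 ⊢
    have e1 : Q * 2 ^ (24 * L) = (Q * 2 ^ (2 * L - ρ)) * (2 ^ (22 * L) * (2 * P)) := by
      rw [h24]
      ring
    have e2 : (Q * 2 ^ (2 * L - ρ) + d) * (2 ^ (22 * L) * (2 * P)) =
        Q * 2 ^ (24 * L) + 2 ^ (22 * L) * (2 * P) * d := by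
      rw [e1]
      ring
    have e3 : (Q * 2 ^ (2 * L - ρ) + d + 1) * (2 ^ (22 * L) * (2 * P)) =
        Q * 2 ^ (24 * L) + 2 ^ (22 * L) * (2 * P) * (d + 1) := by
      rw [e1]
      ring
    apply Nat.div_eq_of_lt_le
    · linarith
    · linarith
  have hkA : kap L * A = kap L * Z * 2 ^ e := by rw [hA]; ring
  have hdiv : kap L * Z / 2 ^ (22 * L + ρ - e) = kap L * A / 2 ^ (22 * L + ρ) := by
    rw [hkA]
    have : 2 ^ (22 * L + ρ) = 2 ^ (22 * L + ρ - e) * 2 ^ e := by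
      rw [← pow_add]
      congr 1
      omega
    rw [this, Nat.mul_div_mul_right _ _ (by positivity)]
  rw [hdiv, hq]
  have h13 : 2 ^ (2 * L - ρ) = 2 ^ L * 2 ^ (L - ρ) := by
    rw [← pow_add]
    congr 1
    omega
  rw [h13]
  have : Q * (2 ^ L * 2 ^ (L - ρ)) + d = d + 2 ^ L * (Q * 2 ^ (L - ρ)) := by ring
  rw [this, Nat.add_mul_mod_self_left, Nat.mod_eq_of_lt hd]

theorem drop_take_bits (w k L z : ℕ) (h : k + L ≤ w) :
    ((bits w z).drop (w - k - L)).take L = bits L (z / 2 ^ k) := by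
  have h1 : w = (w - k - L) + (L + k) := by omega
  have h2 : bits w z = bits (w - k - L) (z / 2 ^ (L + k)) ++ bits (L + k) z := by
    conv_lhs => rw [h1]
    exact bits_add _ _ _
  rw [h2, List.drop_left' (by simp), bits_add, List.take_left' (by simp)]

theorem word_of_slot (L P ρ e Z d : ℕ) (hL : 2 ≤ L) (hρ : 2 ^ ρ = 2 * P) (hP : P ≤ L)
    (he : e ≤ 4 * L) (hZ : Z < 2 ^ (16 * L)) (hd : d < 2 ^ L)
    (hmod : Z * 2 ^ e ≡ P * (2 * d + 1) [MOD 2 ^ (2 * L) + 1]) :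
    ((bits (40 * L) (kap L * Z)).drop (17 * L + e - ρ)).take L = bits L d := by
  have hL2 : 2 * L ≤ 2 ^ L := by
    clear * - hL
    induction L, hL using Nat.le_induction with
    | base => norm_num
    | succ n hn ih => rw [pow_succ]; omega
  have hρL : ρ ≤ L := by
    have : 2 ^ ρ ≤ 2 ^ L := by rw [hρ]; omega
    exact (Nat.pow_le_pow_iff_right (by norm_num)).1 this
  have h1 : 17 * L + e - ρ = 40 * L - (22 * L + ρ - e) - L := by omega
  rw [h1, drop_take_bits _ _ _ _ (by omega), ← bits_mod, extract L P ρ e Z d hL hρ hP he hZ hd hmod]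

end Vale.Agent.P338.R2.H778
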