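import Vale.Agent.P338.R2.H778.Dft
import Vale.Agent.P338.R2.H778.Extract
import Vale.Agent.P338.R2.H778.Round

namespace Vale.Agent.P338.R2.H778

/-- Orthogonality for `θ = 2 ^ τ` modulo `2 ^ (2 L) + 1`, `L = 2 ^ h`, `P = 2 ^ s`,
`τ = 2 L / P`. -/
theorem sum_theta (h s t : ℕ) (hs : s ≤ h) (ht : 0 < t) (hts : t < 2 ^ s) :
    ∑ q ∈ Finset.range (2 ^ s),
      (2 : ZMod (Fm (2 * 2 ^ h))) ^ (2 ^ (h + 1 - s) * (2 * q * t)) = 0 := by
  have h1 : ∀ q ∈ Finset.range (2 ^ s),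
      (2 : ZMod (Fm (2 * 2 ^ h))) ^ (2 ^ (h + 1 - s) * (2 * q * t)) =
      ((2 : ZMod (Fm (2 * 2 ^ h))) ^ (2 ^ (h + 1 - s) * (2 * t))) ^ q := by
    intro q _
    rw [← pow_mul]
    congr 1
    ring
  rw [Finset.sum_congr rfl h1, geom_pow_two]
  obtain ⟨v, u, hu, hv⟩ := Nat.exists_eq_two_pow_mul_odd ht.ne'
  have hvs : v < s := by
    by_contra hc
    push Not at hc
    have h2 : 2 ^ s ≤ 2 ^ v := Nat.pow_le_pow_right (by norm_num) hc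
    have hu0 : 1 ≤ u := hu.pos
    have h3 : 2 ^ s ≤ 2 ^ v * u := le_trans h2 (Nat.le_mul_of_pos_right _ hu0)
    omega
  apply Finset.prod_eq_zero (i := s - 1 - v) (by simp; omega)
  have h2 : 2 ^ (h + 1 - s) * (2 * t) * 2 ^ (s - 1 - v) = 2 * 2 ^ h * u := by
    rw [hv]
    have : 2 ^ h = 2 ^ (h + 1 - s) * 2 ^ v * 2 ^ (s - 1 - v) := by
      rw [← pow_add, ← pow_add]
      congr 1
      omega
    rw [this]
    ring
  rw [← pow_mul, h2, pow_mul, two_pow_L, hu.neg_one_pow]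
  ring

section

variable (h s : ℕ)

theorem pos2L : 0 < 2 * 2 ^ h := by positivity

/-- The root of unity. -/
def theta : (ZMod (Fm (2 * 2 ^ h)))ˣ := (two (2 * 2 ^ h) (pos2L h)) ^ (2 ^ (h + 1 - s))

theorem theta_pow (hs : s ≤ h) : (theta h s) ^ (2 * 2 ^ s) = 1 := by
  rw [theta, ← pow_mul]
  have : 2 ^ (h + 1 - s) * (2 * 2 ^ s) = 2 * (2 * 2 ^ h) := by
    have h1 : 2 ^ (h + 1 - s) * 2 ^ s = 2 ^ (h + 1) := by
      rw [← pow_add]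
      congr 1
      omega
    calc 2 ^ (h + 1 - s) * (2 * 2 ^ s) = 2 * (2 ^ (h + 1 - s) * 2 ^ s) := by ring
      _ = 2 * 2 ^ (h + 1) := by rw [h1]
      _ = _ := by ring
  rw [this, two_zpow_two_mul]

theorem theta_zpow_congr (hs : s ≤ h) (a b : ℤ) (hab : a ≡ b [ZMOD (2 * 2 ^ s : ℕ)]) :
    (theta h s) ^ a = (theta h s) ^ b := by
  obtain ⟨c, hc⟩ := hab.dvd
  have : b = a + (2 * 2 ^ s : ℕ) * c := by linarith
  rw [this, zpow_add, zpow_mul, zpow_natCast, theta_pow h s hs, one_zpow, mul_one]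

theorem theta_cast (e : ℕ) :
    ((2 ^ (2 ^ (h + 1 - s) * e) : ℕ) : ZMod (Fm (2 * 2 ^ h))) =
      ((theta h s) ^ (e : ℤ) : (ZMod (Fm (2 * 2 ^ h)))ˣ) := by
  rw [zpow_natCast, theta, ← pow_mul, Units.val_pow_eq_pow_val, two_val]
  push_cast
  rfl

theorem theta_cast_mod (hs : s ≤ h) (n : ℕ) (t : ℤ) (hn : (n : ℤ) ≡ t [ZMOD (2 * 2 ^ s : ℕ)]) :
    ((2 ^ (2 ^ (h + 1 - s) * (n % (2 * 2 ^ s))) : ℕ) : ZMod (Fm (2 * 2 ^ h))) =
      ((theta h s) ^ t : (ZMod (Fm (2 * 2 ^ h)))ˣ) := by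
  rw [theta_cast]
  congr 1
  apply theta_zpow_congr h s hs
  refine Int.ModEq.trans ?_ hn
  have : (((n % (2 * 2 ^ s) : ℕ)) : ℤ) = (n : ℤ) % ((2 * 2 ^ s : ℕ) : ℤ) := by push_cast; rfl
  rw [this]
  exact Int.mod_modEq _ _

theorem sum_theta_zpow (hs : s ≤ h) (t : ℤ) (ht : t ≠ 0) (h1 : -(2 ^ s : ℤ) < t)
    (h2 : t < 2 ^ s) :
    ∑ q ∈ Finset.range (2 ^ s),
      (((theta h s) ^ (2 * (q : ℤ) * t) : (ZMod (Fm (2 * 2 ^ h)))ˣ) :
        ZMod (Fm (2 * 2 ^ h))) = 0 := by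
  set r : ℕ := (t % (2 ^ s : ℤ)).toNat with hr
  have hpos : (0 : ℤ) < 2 ^ s := by positivity
  have hr0 : (r : ℤ) = t % (2 ^ s : ℤ) := Int.toNat_of_nonneg (Int.emod_nonneg _ hpos.ne')
  have hrlt : r < 2 ^ s := by
    have := Int.emod_lt_of_pos t hpos
    rw [← hr0] at this
    exact_mod_cast this
  have hrpos : 0 < r := by
    rcases Nat.eq_zero_or_pos r with h0 | h0
    · exfalso
      rw [h0] at hr0
      have hd : (2 ^ s : ℤ) ∣ t := Int.dvd_of_emod_eq_zero hr0.symm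
      obtain ⟨c, hc⟩ := hd
      have hc0 : c ≠ 0 := by
        rintro rfl
        simp at hc
        exact ht hc
      rcases lt_or_gt_of_ne hc0 with hneg | hpos'
      · have : c ≤ -1 := by omega
        nlinarith
      · have : 1 ≤ c := by omega
        nlinarith
    · exact h0
  rw [← sum_theta h s r hs hrpos hrlt]
  apply Finset.sum_congr rfl
  intro q _
  have h3 := theta_cast h s (2 * q * r)
  rw [Nat.cast_pow, Nat.cast_ofNat] at h3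
  rw [h3]
  congr 1
  apply theta_zpow_congr h s hs
  have h4 : t ≡ r [ZMOD (2 ^ s : ℤ)] := by
    rw [hr0]
    exact (Int.mod_modEq _ _).symm
  obtain ⟨c, hc⟩ := h4.dvd
  refine (Int.modEq_iff_dvd).2 ⟨q * c, ?_⟩
  push_cast
  have : (r : ℤ) = t + 2 ^ s * c := by linarith
  rw [this]
  ring

/-- Exponent of the chirp kernel. -/
def eG (d : ℕ) : ℕ := 2 ^ (h + 1 - s) * (d ^ 2 % (2 * 2 ^ s))

/-- Exponent of the middle twist. -/
def eMid (q c : ℕ) : ℕ :=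
  2 ^ (h + 1 - s) * ((2 * q * (c + (2 * 2 ^ s * q - q))) % (2 * 2 ^ s))

/-- Exponent of the final twist. -/
def ePost (x y : ℕ) : ℕ :=
  2 ^ (h + 1 - s) * ((2 * 2 ^ s * (x ^ 2 + y ^ 2) - (x ^ 2 + y ^ 2)) % (2 * 2 ^ s))

variable (v : ℕ → ℕ → ℕ)

/-- Row `x` of the sheared data. -/
def aa (x c : ℕ) : ℕ := if x ≤ c ∧ c - x < 2 ^ s then 2 * v x (c - x) + 1 else 0

/-- First product. -/
def Z1 (q c : ℕ) : ℕ := ∑ x ∈ Finset.range (2 ^ s), aa s v x c * 2 ^ eG h s (2 ^ s + q - x)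

/-- After the twist. -/
def Z2 (q c : ℕ) : ℕ := Z1 h s v q c * 2 ^ eMid h s q c

/-- Second product, without the multiplier. -/
def Z3 (y c : ℕ) : ℕ := ∑ q ∈ Finset.range (2 ^ s), Z2 h s v q c * 2 ^ eG h s (2 ^ s + y - q)

variable {h s}

theorem mul_mod_lt (hs : s ≤ h) (n : ℕ) :
    2 ^ (h + 1 - s) * (n % (2 * 2 ^ s)) < 4 * 2 ^ h := by
  have h1 : 2 ^ (h + 1 - s) * (2 * 2 ^ s) = 4 * 2 ^ h := by
    have h1 : 2 ^ (h + 1 - s) * 2 ^ s = 2 ^ (h + 1) := by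
      rw [← pow_add]
      congr 1
      omega
    calc 2 ^ (h + 1 - s) * (2 * 2 ^ s) = 2 * (2 ^ (h + 1 - s) * 2 ^ s) := by ring
      _ = 2 * 2 ^ (h + 1) := by rw [h1]
      _ = _ := by ring
  rw [← h1]
  exact Nat.mul_lt_mul_of_pos_left (Nat.mod_lt _ (by positivity)) (by positivity)

theorem eG_lt (hs : s ≤ h) (d : ℕ) : eG h s d < 4 * 2 ^ h := mul_mod_lt hs _
theorem eMid_lt (hs : s ≤ h) (q c : ℕ) : eMid h s q c < 4 * 2 ^ h := mul_mod_lt hs _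
theorem ePost_lt (hs : s ≤ h) (x y : ℕ) : ePost h s x y < 4 * 2 ^ h := mul_mod_lt hs _

theorem aa_lt (hv : ∀ x y, v x y < 2 ^ 2 ^ h) (x c : ℕ) : aa s v x c < 2 ^ (2 ^ h + 1) := by
  unfold aa
  split_ifs
  · have := hv x (c - x)
    rw [pow_succ]
    omega
  · positivity

theorem sum_lt_aux {n : ℕ} (hn : 0 < n) {f g : ℕ → ℕ} {a b : ℕ} (hf : ∀ i < n, f i < 2 ^ a)
    (hg : ∀ i < n, g i < 4 * 2 ^ b) : ∑ i ∈ Finset.range n, f i * 2 ^ g i <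
      n * 2 ^ (a + 4 * 2 ^ b) := by
  have : ∑ i ∈ Finset.range n, f i * 2 ^ g i < ∑ i ∈ Finset.range n, 2 ^ (a + 4 * 2 ^ b) := by
    apply Finset.sum_lt_sum_of_nonempty (by simpa using hn.ne')
    intro i hi
    rw [Finset.mem_range] at hi
    rw [pow_add]
    exact Nat.mul_lt_mul_of_lt_of_le (hf i hi)
      (Nat.pow_le_pow_right (by norm_num) (hg i hi).le) (by positivity)
  simpa using this

theorem two_pow_s_le (hs : s ≤ h) : 2 ^ s ≤ 2 ^ 2 ^ h := by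
  apply Nat.pow_le_pow_right (by norm_num)
  exact hs.trans (Nat.lt_two_pow_self).le

theorem Z1_lt (hs : s ≤ h) (hv : ∀ x y, v x y < 2 ^ 2 ^ h) (q c : ℕ) :
    Z1 h s v q c < 2 ^ (6 * 2 ^ h + 1) := by
  have h1 := sum_lt_aux (n := 2 ^ s) (by positivity) (f := fun x => aa s v x c)
    (g := fun x => eG h s (2 ^ s + q - x)) (a := 2 ^ h + 1) (b := h)
    (fun x _ => aa_lt v hv x c) (fun x _ => eG_lt hs _)
  refine lt_of_lt_of_le h1 ?_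
  calc 2 ^ s * 2 ^ (2 ^ h + 1 + 4 * 2 ^ h) ≤ 2 ^ 2 ^ h * 2 ^ (2 ^ h + 1 + 4 * 2 ^ h) :=
        Nat.mul_le_mul_right _ (two_pow_s_le hs)
    _ = 2 ^ (6 * 2 ^ h + 1) := by rw [← pow_add]; congr 1; ring

theorem Z2_lt (hs : s ≤ h) (hv : ∀ x y, v x y < 2 ^ 2 ^ h) (q c : ℕ) :
    Z2 h s v q c < 2 ^ (10 * 2 ^ h + 1) := by
  have h1 := Z1_lt v hs hv q c
  have h2 : 2 ^ eMid h s q c ≤ 2 ^ (4 * 2 ^ h) :=
    Nat.pow_le_pow_right (by norm_num) (eMid_lt hs q c).le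
  calc Z2 h s v q c < 2 ^ (6 * 2 ^ h + 1) * 2 ^ (4 * 2 ^ h) :=
        Nat.mul_lt_mul_of_lt_of_le h1 h2 (by positivity)
    _ = 2 ^ (10 * 2 ^ h + 1) := by rw [← pow_add]; congr 1; ring

theorem Z3_lt (hs : s ≤ h) (hv : ∀ x y, v x y < 2 ^ 2 ^ h) (y c : ℕ) :
    Z3 h s v y c < 2 ^ (15 * 2 ^ h + 1) := by
  have h1 := sum_lt_aux (n := 2 ^ s) (by positivity) (f := fun q => Z2 h s v q c)
    (g := fun q => eG h s (2 ^ s + y - q)) (a := 10 * 2 ^ h + 1) (b := h)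
    (fun x _ => Z2_lt v hs hv x c) (fun x _ => eG_lt hs _)
  refine lt_of_lt_of_le h1 ?_
  calc 2 ^ s * 2 ^ (10 * 2 ^ h + 1 + 4 * 2 ^ h) ≤ 2 ^ 2 ^ h * 2 ^ (10 * 2 ^ h + 1 + 4 * 2 ^ h) :=
        Nat.mul_le_mul_right _ (two_pow_s_le hs)
    _ = 2 ^ (15 * 2 ^ h + 1) := by rw [← pow_add]; congr 1; ring

theorem theta_eG (hs : s ≤ h) (hs1 : 1 ≤ s) (q x : ℕ) (hx : x < 2 ^ s) :
    ((2 ^ eG h s (2 ^ s + q - x) : ℕ) : ZMod (Fm (2 * 2 ^ h))) =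
      ((theta h s) ^ (((q : ℤ) - x) ^ 2) : (ZMod (Fm (2 * 2 ^ h)))ˣ) := by
  rw [eG]
  apply theta_cast_mod h s hs
  have h1 : ((2 ^ s + q - x : ℕ) : ℤ) = 2 ^ s + ((q : ℤ) - x) := by
    rw [Nat.cast_sub (by omega)]
    push_cast
    ring
  push_cast [h1]
  obtain ⟨s', rfl⟩ : ∃ s', s = s' + 1 := ⟨s - 1, by omega⟩
  refine Int.ModEq.symm ((Int.modEq_iff_dvd).2 ⟨2 ^ s' + ((q : ℤ) - x), ?_⟩)
  ring

theorem theta_eMid (hs : s ≤ h) (q c : ℕ) :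
    ((2 ^ eMid h s q c : ℕ) : ZMod (Fm (2 * 2 ^ h))) =
      ((theta h s) ^ (2 * (q : ℤ) * (c - q)) : (ZMod (Fm (2 * 2 ^ h)))ˣ) := by
  rw [eMid]
  apply theta_cast_mod h s hs
  have h1 : ((2 * 2 ^ s * q - q : ℕ) : ℤ) = 2 * 2 ^ s * q - q := by
    rw [Nat.cast_sub]
    · push_cast
      ring
    · have : 1 ≤ 2 * 2 ^ s := by
        have : 0 < 2 ^ s := by positivity
        omega
      exact Nat.le_mul_of_pos_left _ this
  push_cast [h1]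
  refine Int.ModEq.symm ((Int.modEq_iff_dvd).2 ⟨2 * q * q, ?_⟩)
  ring

theorem theta_ePost (hs : s ≤ h) (x y : ℕ) :
    ((2 ^ ePost h s x y : ℕ) : ZMod (Fm (2 * 2 ^ h))) =
      ((theta h s) ^ (-((x : ℤ) ^ 2 + (y : ℤ) ^ 2)) : (ZMod (Fm (2 * 2 ^ h)))ˣ) := by
  rw [ePost]
  apply theta_cast_mod h s hs
  have h1 : ((2 * 2 ^ s * (x ^ 2 + y ^ 2) - (x ^ 2 + y ^ 2) : ℕ) : ℤ) =
      2 * 2 ^ s * ((x : ℤ) ^ 2 + (y : ℤ) ^ 2) - ((x : ℤ) ^ 2 + (y : ℤ) ^ 2) := by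
    rw [Nat.cast_sub]
    · push_cast
      ring
    · have : 1 ≤ 2 * 2 ^ s := by
        have : 0 < 2 ^ s := by positivity
        omega
      exact Nat.le_mul_of_pos_left _ this
  rw [h1]
  push_cast
  refine Int.ModEq.symm ((Int.modEq_iff_dvd).2 ⟨(x : ℤ) ^ 2 + (y : ℤ) ^ 2, ?_⟩)
  ring

theorem Z3_cast (hs : s ≤ h) (hs1 : 1 ≤ s) (y c : ℕ) :
    ((Z3 h s v y c : ℕ) : ZMod (Fm (2 * 2 ^ h))) =
      ∑ x ∈ Finset.range (2 ^ s), (aa s v x c : ZMod (Fm (2 * 2 ^ h))) *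
        (((theta h s) ^ ((x : ℤ) ^ 2 + (y : ℤ) ^ 2) : (ZMod (Fm (2 * 2 ^ h)))ˣ) *
        ∑ q ∈ Finset.range (2 ^ s), (((theta h s) ^ (2 * (q : ℤ) * ((c : ℤ) - x - y)) :
          (ZMod (Fm (2 * 2 ^ h)))ˣ) : ZMod (Fm (2 * 2 ^ h)))) := by
  have h1 : ((Z3 h s v y c : ℕ) : ZMod (Fm (2 * 2 ^ h))) =
      ∑ q ∈ Finset.range (2 ^ s), ∑ x ∈ Finset.range (2 ^ s),
        (aa s v x c : ZMod (Fm (2 * 2 ^ h))) *
        (((theta h s) ^ ((x : ℤ) ^ 2 + (y : ℤ) ^ 2) : (ZMod (Fm (2 * 2 ^ h)))ˣ) *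
        (((theta h s) ^ (2 * (q : ℤ) * ((c : ℤ) - x - y)) :
          (ZMod (Fm (2 * 2 ^ h)))ˣ) : ZMod (Fm (2 * 2 ^ h)))) := by
    rw [Z3, Nat.cast_sum]
    apply Finset.sum_congr rfl
    intro q hq
    rw [Finset.mem_range] at hq
    rw [Nat.cast_mul, theta_eG hs hs1 y q hq, Z2, Nat.cast_mul, theta_eMid hs, Z1, Nat.cast_sum,
      Finset.sum_mul, Finset.sum_mul]
    apply Finset.sum_congr rfl
    intro x hx
    rw [Finset.mem_range] at hx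
    rw [Nat.cast_mul, theta_eG hs hs1 q x hx, mul_assoc, mul_assoc]
    congr 1
    rw [← Units.val_mul, ← Units.val_mul, ← Units.val_mul, ← zpow_add, ← zpow_add, ← zpow_add]
    congr 2
    ring
  rw [h1, Finset.sum_comm]
  apply Finset.sum_congr rfl
  intro x _
  rw [Finset.mul_sum, Finset.mul_sum]

theorem Z3_mod (hs : s ≤ h) (hs1 : 1 ≤ s) (x y : ℕ) (hx : x < 2 ^ s) (hy : y < 2 ^ s) :
    Z3 h s v y (y + x) * 2 ^ ePost h s x y ≡ 2 ^ s * (2 * v x y + 1) [MOD 2 ^ (2 * 2 ^ h) + 1] := by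
  rw [← ZMod.natCast_eq_natCast_iff]
  rw [Nat.cast_mul]
  have hpost := theta_ePost hs x y
  have hsum : ((Z3 h s v y (y + x) : ℕ) : ZMod (Fm (2 * 2 ^ h))) =
      (aa s v x (y + x) : ZMod (Fm (2 * 2 ^ h))) *
        (((theta h s) ^ ((x : ℤ) ^ 2 + (y : ℤ) ^ 2) : (ZMod (Fm (2 * 2 ^ h)))ˣ) *
          (2 ^ s : ZMod (Fm (2 * 2 ^ h)))) := by
    rw [Z3_cast v hs hs1, Finset.sum_eq_single x]
    · congr 2
      have : ((y + x : ℕ) : ℤ) - x - y = 0 := by push_cast; ring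
      rw [this]
      simp
    · intro x' hx' hne
      rw [Finset.mem_range] at hx'
      by_cases ha : x' ≤ y + x ∧ y + x - x' < 2 ^ s
      · rw [sum_theta_zpow h s hs]
        · ring
        · intro h0
          apply hne
          have : ((y + x : ℕ) : ℤ) - x' - y = (x : ℤ) - x' := by push_cast; ring
          rw [this] at h0
          omega
        · push_cast
          have h2 : (x' : ℤ) < 2 ^ s := by exact_mod_cast hx'
          have h3 : (0 : ℤ) ≤ x := by positivity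
          linarith
        · push_cast
          have h2 : (x : ℤ) < 2 ^ s := by exact_mod_cast hx
          have h3 : (0 : ℤ) ≤ x' := by positivity
          linarith
      · rw [aa, if_neg ha]
        simp
    · intro hx'
      exact absurd (Finset.mem_range.2 hx) hx'
  rw [hsum, hpost]
  have ha : aa s v x (y + x) = 2 * v x y + 1 := by
    rw [aa, if_pos ⟨by omega, by omega⟩]
    congr 3
    omega
  rw [ha]
  have hcancel : (((theta h s) ^ ((x : ℤ) ^ 2 + (y : ℤ) ^ 2) : (ZMod (Fm (2 * 2 ^ h)))ˣ) :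
      ZMod (Fm (2 * 2 ^ h))) *
      ((theta h s) ^ (-((x : ℤ) ^ 2 + (y : ℤ) ^ 2)) : (ZMod (Fm (2 * 2 ^ h)))ˣ) = 1 := by
    rw [← Units.val_mul, ← zpow_add, add_neg_cancel, zpow_zero, Units.val_one]
  push_cast
  linear_combination (2 * (v x y : ZMod (Fm (2 * 2 ^ h))) + 1) * (2 : ZMod (Fm (2 * 2 ^ h))) ^ s * hcancel

/-- **The number-level core of one round.** -/
theorem core (hs : s ≤ h) (hs1 : 1 ≤ s) (hv : ∀ x y, v x y < 2 ^ 2 ^ h) (x y : ℕ)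
    (hx : x < 2 ^ s) (hy : y < 2 ^ s) :
    (kap (2 ^ h) * Z3 h s v y (y + x)) / 2 ^ (22 * 2 ^ h + (s + 1) - ePost h s x y) % 2 ^ 2 ^ h =
      v x y := by
  have hL : 2 ≤ 2 ^ h := by
    calc 2 = 2 ^ 1 := by norm_num
      _ ≤ 2 ^ h := Nat.pow_le_pow_right (by norm_num) (by omega)
  apply extract (2 ^ h) (2 ^ s) (s + 1) (ePost h s x y) _ _ hL (by rw [pow_succ]; ring)
    (Nat.pow_le_pow_right (by norm_num) hs) (ePost_lt hs x y).le _ (hv x y)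
    (Z3_mod v hs hs1 x y hx hy)
  refine lt_of_lt_of_le (Z3_lt v hs hv y (y + x)) (Nat.pow_le_pow_right (by norm_num) (by omega))

end

end Vale.Agent.P338.R2.H778
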