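import Mathlib

namespace Vale.Agent.P338.R2.H778

/-- The modulus `2 ^ L + 1`. -/
abbrev Fm (L : ℕ) : ℕ := 2 ^ L + 1

theorem two_pow_L (L : ℕ) : (2 : ZMod (Fm L)) ^ L = -1 := by
  have h : ((2 ^ L + 1 : ℕ) : ZMod (Fm L)) = 0 := ZMod.natCast_self _
  push_cast at h
  exact eq_neg_of_add_eq_zero_left h

theorem geom_pow_two {R : Type*} [CommRing R] (r : R) (h : ℕ) :
    ∑ q ∈ Finset.range (2 ^ h), r ^ q = ∏ i ∈ Finset.range h, (1 + r ^ (2 ^ i)) := by
  induction h with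
  | zero => simp
  | succ h ih =>
    rw [Finset.prod_range_succ, ← ih, pow_succ, mul_two, Finset.sum_range_add]
    simp only [pow_add]
    rw [← Finset.mul_sum]
    ring

/-- The orthogonality relation: `2` is a principal `2L`-th root of unity modulo `2 ^ L + 1`. -/
theorem sum_two_pow (h t : ℕ) (ht : 0 < t) (htL : t < 2 ^ h) :
    ∑ q ∈ Finset.range (2 ^ h), (2 : ZMod (Fm (2 ^ h))) ^ (2 * q * t) = 0 := by
  have h1 : ∀ q ∈ Finset.range (2 ^ h), (2 : ZMod (Fm (2 ^ h))) ^ (2 * q * t) =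
      ((2 : ZMod (Fm (2 ^ h))) ^ (2 * t)) ^ q := by
    intro q _
    rw [← pow_mul]
    congr 1
    ring
  rw [Finset.sum_congr rfl h1, geom_pow_two]
  obtain ⟨v, u, hu, hv⟩ := Nat.exists_eq_two_pow_mul_odd ht.ne'
  have hvh : v < h := by
    by_contra hc
    push Not at hc
    have : 2 ^ h ≤ 2 ^ v := Nat.pow_le_pow_right (by norm_num) hc
    have hu0 : 1 ≤ u := hu.pos
    have : 2 ^ h ≤ 2 ^ v * u := le_trans this (Nat.le_mul_of_pos_right _ hu0)
    omega
  apply Finset.prod_eq_zero (i := h - 1 - v) (by simp; omega)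
  have h2 : 2 * t * 2 ^ (h - 1 - v) = 2 ^ h * u := by
    rw [hv]
    have : 2 ^ h = 2 * 2 ^ v * 2 ^ (h - 1 - v) := by
      rw [← pow_succ', ← pow_add]
      congr 1
      omega
    rw [this]
    ring
  rw [← pow_mul, h2, pow_mul, two_pow_L, hu.neg_one_pow]
  ring

/-- `2` as a unit modulo `2 ^ L + 1`. -/
def two (L : ℕ) (hL : 0 < L) : (ZMod (Fm L))ˣ where
  val := 2
  inv := -2 ^ (L - 1)
  val_inv := by
    rw [mul_neg, ← pow_succ', Nat.sub_add_cancel hL, two_pow_L]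
    ring
  inv_val := by
    rw [neg_mul, ← pow_succ, Nat.sub_add_cancel hL, two_pow_L]
    ring

theorem two_val (L : ℕ) (hL : 0 < L) : ((two L hL : (ZMod (Fm L))ˣ) : ZMod (Fm L)) = 2 := rfl

theorem two_zpow_two_mul (L : ℕ) (hL : 0 < L) : (two L hL) ^ (2 * L) = 1 := by
  ext
  rw [Units.val_pow_eq_pow_val, two_val, mul_comm, pow_mul, two_pow_L]
  simp

end Vale.Agent.P338.R2.H778
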