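import Vale.Agent.P338.R2.H778.Round
import Vale.Agent.P338.R2.H778.Extract

namespace Vale.Agent.P338.R2.H778

/-- Convolution with a spread kernel, arbitrary position. -/
theorem conv_spread_gen (R D : ℕ) (hR : 0 < R) (γ : ℕ → ℕ) (f : ℕ → ℕ) (p : ℕ) :
    conv f (spread R D γ) p =
      ∑ d ∈ Finset.range D, if d * R ≤ p then f (p - d * R) * γ d else 0 := by
  have hp : p = (p / R) * R + p % R := by rw [mul_comm]; exact (Nat.div_add_mod p R).symm
  have hm : p % R < R := Nat.mod_lt _ hR
  generalize p / R = ρ at hp
  generalize p % R = m at hp hm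
  subst hp
  rw [conv_spread R D γ f _ _ hm]
  apply Finset.sum_congr rfl
  intro d _
  by_cases h : d ≤ ρ
  · have h1 : d * R ≤ ρ * R := Nat.mul_le_mul_right _ h
    have h2 : (ρ - d) * R + d * R = ρ * R := by
      rw [← add_mul]
      congr 1
      omega
    rw [if_pos h, if_pos (by omega)]
    congr 2
    omega
  · have h1 : (ρ + 1) * R ≤ d * R := Nat.mul_le_mul_right _ (by omega)
    have h2 : (ρ + 1) * R = ρ * R + R := by ring
    rw [if_neg h, if_neg (by omega)]

theorem val_replicate_false (n : ℕ) : val (List.replicate n false) = 0 := by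
  rw [← bits_zero, val_bits, Nat.zero_mod]

theorem val_replicate_true (n : ℕ) : val (List.replicate n true) + 1 = 2 ^ n := by
  induction n with
  | zero => simp
  | succ n ih =>
    rw [List.replicate_succ, val_cons, List.length_replicate, pow_succ]
    simp only [Bool.toNat_true, one_mul]
    omega

theorem val_append_zeros (l : List Bool) (n : ℕ) :
    val (l ++ List.replicate n false) = val l * 2 ^ n := by
  rw [val_append, val_replicate_false, List.length_replicate, add_zero]

theorem val_zeros_append (l : List Bool) (n : ℕ) :
    val (List.replicate n false ++ l) = val l := by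
  rw [val_append, val_replicate_false, zero_mul, zero_add]

theorem pattern_aux (L m : ℕ) :
    val ((List.range m).flatMap
      (fun _ => List.replicate (2 * L) false ++ List.replicate (2 * L) true)) * (2 ^ (2 * L) + 1) + 1
      = 2 ^ (4 * L * m) ∧
    ((List.range m).flatMap
      (fun _ => List.replicate (2 * L) false ++ List.replicate (2 * L) true)).length
      = 4 * L * m := by
  induction m with
  | zero => simp
  | succ m ih =>
    obtain ⟨h1, h2⟩ := ih
    rw [List.range_succ, List.flatMap_append]
    simp only [List.flatMap_cons, List.flatMap_nil, List.append_nil]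
    constructor
    · rw [val_append, val_zeros_append, List.length_append, List.length_replicate,
        List.length_replicate]
      have h3 := val_replicate_true (2 * L)
      set a := val ((List.range m).flatMap
        (fun _ => List.replicate (2 * L) false ++ List.replicate (2 * L) true)) with ha
      set b := val (List.replicate (2 * L) true) with hb
      have h4 : 2 ^ (2 * L + 2 * L) = 2 ^ (2 * L) * 2 ^ (2 * L) := by rw [pow_add]
      have h5 : 2 ^ (4 * L * (m + 1)) = 2 ^ (4 * L * m) * (2 ^ (2 * L) * 2 ^ (2 * L)) := by
        rw [← h4, ← pow_add]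
        congr 1
        ring
      rw [h5, ← h1, h4, ← h3]
      ring
    · rw [List.length_append, h2, List.length_append, List.length_replicate,
        List.length_replicate]
      ring

/-- The value of the pattern `(0^b 1^b)^6`, `b = 2 L`. -/
theorem val_pattern (L : ℕ) :
    val ((List.range 6).flatMap
      (fun _ => List.replicate (2 * L) false ++ List.replicate (2 * L) true)) = kap L := by
  have h1 := (pattern_aux L 6).1
  have h2 := kap_spec L
  have h3 : 4 * L * 6 = 24 * L := by ring
  rw [h3] at h1
  have h4 : 0 < 2 ^ (24 * L) := by positivity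
  have h5 : 0 < 2 ^ (2 * L) + 1 := by positivity
  apply Nat.eq_of_mul_eq_mul_right h5
  omega

theorem length_pattern (L : ℕ) :
    ((List.range 6).flatMap
      (fun _ => List.replicate (2 * L) false ++ List.replicate (2 * L) true)).length = 24 * L := by
  rw [(pattern_aux L 6).2]
  ring

theorem kap_lt (L : ℕ) : kap L < 2 ^ (24 * L) := by
  have h1 := val_lt ((List.range 6).flatMap
    (fun _ => List.replicate (2 * L) false ++ List.replicate (2 * L) true))
  rwa [val_pattern, length_pattern] at h1

theorem kap_lt' (L : ℕ) : kap L < 2 ^ (22 * L) := by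
  have h := kap_spec L
  by_contra hc
  push Not at hc
  have h1 : 2 ^ (22 * L) * 2 ^ (2 * L) ≤ kap L * 2 ^ (2 * L) := Nat.mul_le_mul_right _ hc
  have h2 : 2 ^ (22 * L) * 2 ^ (2 * L) = 2 ^ (24 * L) := by rw [← pow_add]; congr 1; ring
  have h3 : kap L * (2 ^ (2 * L) + 1) = kap L * 2 ^ (2 * L) + kap L := by ring
  have h4 : 0 < 2 ^ (24 * L) := by positivity
  omega

/-- A one-hot slot. -/
theorem oneHot_eq_bits (W e : ℕ) (he : e < W) :
    List.replicate (W - 1 - e) false ++ [true] ++ List.replicate e false = bits W (2 ^ e) := by
  apply val_inj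
  · simp
    omega
  · rw [val_append_zeros, val_zeros_append, val_bits_of_lt (Nat.pow_lt_pow_right (by norm_num) he)]
    simp

/-- The slot with the shifted pattern. -/
theorem patternSlot_eq_bits (W L e : ℕ) (he : e + 24 * L ≤ W) :
    List.replicate (W - 24 * L - e) false ++ ((List.range 6).flatMap
      (fun _ => List.replicate (2 * L) false ++ List.replicate (2 * L) true)) ++
      List.replicate e false = bits W (kap L * 2 ^ e) := by
  apply val_inj
  · rw [List.length_append, List.length_append, List.length_replicate, List.length_replicate,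
      length_pattern, length_bits]
    omega
  · rw [val_append_zeros, val_zeros_append, val_pattern, val_bits_of_lt]
    have h1 : kap L * 2 ^ e < 2 ^ (24 * L) * 2 ^ e :=
      Nat.mul_lt_mul_of_pos_right (kap_lt L) (by positivity)
    rw [← pow_add] at h1
    exact lt_of_lt_of_le h1 (Nat.pow_le_pow_right (by norm_num) (by omega))

/-- Left shift of a slot with enough leading zeros. -/
theorem drop_append_zeros_bits (W e z : ℕ) (he : e ≤ W) (hz : z * 2 ^ e < 2 ^ W) :
    (bits W z).drop e ++ List.replicate e false = bits W (z * 2 ^ e) := by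
  have h1 : W = e + (W - e) := by omega
  have hz' : z < 2 ^ (W - e) := by
    by_contra hc
    push Not at hc
    have : 2 ^ (W - e) * 2 ^ e ≤ z * 2 ^ e := Nat.mul_le_mul_right _ hc
    rw [← pow_add, Nat.sub_add_cancel he] at this
    omega
  have h2 : (bits W z).drop e = bits (W - e) z := by
    conv_lhs => rw [h1]
    rw [bits_add, List.drop_left' (by simp)]
  rw [h2]
  apply val_inj
  · simp
    omega
  · rw [val_append_zeros, val_bits_of_lt hz', val_bits_of_lt hz]

/-- The data word slot. -/
theorem wordSlot_eq_bits (W L d : ℕ) (hd : d < 2 ^ L) (hW : L + 1 ≤ W) :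
    List.replicate (W - L - 1) false ++ bits L d ++ [true] = bits W (2 * d + 1) := by
  apply val_inj
  · simp
    omega
  · rw [val_append, val_zeros_append, val_bits_of_lt hd, val_bits_of_lt]
    · simp
      ring
    · calc 2 * d + 1 < 2 ^ (L + 1) := by rw [pow_succ]; omega
        _ ≤ 2 ^ W := Nat.pow_le_pow_right (by norm_num) hW

/-- Product of two operands padded with trailing zeros to `n` bits. -/
theorem bits_mul_pad (n : ℕ) (x y : List Bool) (hx : x.length ≤ n) (hy : y.length ≤ n) :
    bits (2 * n) (val (x ++ List.replicate (n - x.length) false) *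
      val (y ++ List.replicate (n - y.length) false)) =
      bits (x.length + y.length) (val x * val y) ++
        List.replicate (2 * n - x.length - y.length) false := by
  apply val_inj
  · simp
    omega
  · rw [val_append_zeros, val_append_zeros, val_append_zeros]
    have h1 : val x * val y < 2 ^ (x.length + y.length) := by
      rw [pow_add]
      exact Nat.mul_lt_mul'' (val_lt x) (val_lt y)
    have h2 : val x * 2 ^ (n - x.length) * (val y * 2 ^ (n - y.length)) =
        val x * val y * 2 ^ (2 * n - x.length - y.length) := by
      have : 2 * n - x.length - y.length = (n - x.length) + (n - y.length) := by omega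
      rw [this, pow_add]
      ring
    rw [h2, val_bits_of_lt h1, val_bits_of_lt]
    calc val x * val y * 2 ^ (2 * n - x.length - y.length) <
        2 ^ (x.length + y.length) * 2 ^ (2 * n - x.length - y.length) :=
          Nat.mul_lt_mul_of_pos_right h1 (by positivity)
      _ = 2 ^ (2 * n) := by rw [← pow_add]; congr 1; omega

/-- Numbers with different numbers of slots: the product. -/
theorem num_mul' (w n m : ℕ) (f g : ℕ → ℕ) (hn : 0 < n) (hm : 0 < m) (hf : ∀ i, n ≤ i → f i = 0)
    (hg : ∀ i, m ≤ i → g i = 0) :
    num w n f * num w m g = num w (n + m - 1) (conv f g) := by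
  unfold num
  rw [Finset.sum_mul_sum]
  have h1 : ∀ i ∈ Finset.range n, ∀ j ∈ Finset.range m,
      f i * 2 ^ (w * (n - 1 - i)) * (g j * 2 ^ (w * (m - 1 - j))) =
      f i * g j * 2 ^ (w * (n + m - 1 - 1 - (i + j))) := by
    intro i hi j hj
    rw [Finset.mem_range] at hi hj
    have : n + m - 1 - 1 - (i + j) = (n - 1 - i) + (m - 1 - j) := by omega
    rw [this, mul_add, pow_add]
    ring
  rw [Finset.sum_congr rfl (fun i hi => Finset.sum_congr rfl (h1 i hi))]
  have h2 : ∀ c ∈ Finset.range (n + m - 1), conv f g c * 2 ^ (w * (n + m - 1 - 1 - c)) =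
      ∑ i ∈ Finset.range n, ∑ j ∈ Finset.range m,
        if i + j = c then f i * g j * 2 ^ (w * (n + m - 1 - 1 - (i + j))) else 0 := by
    intro c hc
    rw [Finset.mem_range] at hc
    have h3 : ∀ i ∈ Finset.range n, (∑ j ∈ Finset.range m,
        if i + j = c then f i * g j * 2 ^ (w * (n + m - 1 - 1 - (i + j))) else 0) =
        if i ≤ c then f i * g (c - i) * 2 ^ (w * (n + m - 1 - 1 - c)) else 0 := by
      intro i hi
      by_cases hic : i ≤ c
      · rw [if_pos hic]
        by_cases hcn : c - i < m
        · rw [Finset.sum_eq_single (c - i)]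
          · have : i + (c - i) = c := by omega
            rw [this, if_pos rfl]
          · intro j _ hj
            rw [if_neg (by omega)]
          · intro h
            exact absurd (Finset.mem_range.2 hcn) h
        · rw [hg (c - i) (by omega)]
          rw [Finset.sum_eq_zero]
          · simp
          · intro j hj
            rw [Finset.mem_range] at hj
            rw [if_neg (by omega)]
      · rw [if_neg hic]
        apply Finset.sum_eq_zero
        intro j _
        rw [if_neg (by omega)]
    rw [Finset.sum_congr rfl h3, ← Finset.sum_filter, conv, Finset.sum_mul]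
    symm
    apply Finset.sum_subset
    · intro i hi
      simp only [Finset.mem_filter, Finset.mem_range] at hi ⊢
      omega
    · intro i hi hi'
      simp only [Finset.mem_filter, Finset.mem_range, not_and] at hi hi'
      rw [hf i (by by_contra hcon; exact hi' (by omega) (by omega))]
      simp
  rw [Finset.sum_congr rfl h2]
  symm
  rw [Finset.sum_comm]
  apply Finset.sum_congr rfl
  intro i hi
  rw [Finset.sum_comm]
  apply Finset.sum_congr rfl
  intro j hj
  rw [Finset.mem_range] at hi hj
  rw [Finset.sum_ite_eq, if_pos (Finset.mem_range.2 (by omega))]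

/-- Product of slot lists with `n` and `m` slots. -/
theorem bits_mul_slots' (w n m : ℕ) (hn : 0 < n) (hm : 0 < m) (f g : ℕ → ℕ)
    (hf : ∀ i, n ≤ i → f i = 0) (hg : ∀ i, m ≤ i → g i = 0) (hf' : ∀ i < n, f i < 2 ^ w)
    (hg' : ∀ i < m, g i < 2 ^ w) (hc : ∀ c < n + m - 1, conv f g c < 2 ^ w) :
    bits (w * n + w * m) (val (slots w n f) * val (slots w m g)) =
      bits w 0 ++ slots w (n + m - 1) (conv f g) := by
  rw [val_slots w n f hf', val_slots w m g hg', num_mul' w n m f g hn hm hf hg,
    slots_eq_bits w (n + m - 1) _ hc]
  have h1 : w * n + w * m = w + w * (n + m - 1) := by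
    obtain ⟨k, rfl⟩ : ∃ k, n = k + 1 := ⟨n - 1, by omega⟩
    have : k + 1 + m - 1 = k + m := by omega
    rw [this]
    ring
  rw [h1]
  have h2 := bits_add' w (w * (n + m - 1)) 0 (num w (n + m - 1) (conv f g))
    (num_lt _ _ _ hc)
  rw [zero_mul, zero_add] at h2
  exact h2

end Vale.Agent.P338.R2.H778
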