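import Vale.Agent.P338.R2.H784.Arith
import Vale.Agent.P338.R2.H784.Analytic

/-!
P338: the ruler giving the size of the multiplications.
-/

namespace Vale.Agent.P338.R2.H778

open Vale.Agent.P338.R2.H898
open Vale.Agent.P338.R2.H784
open Function (update)

set_option linter.unusedSectionVars false

variable {M F α : Type} [DecidableEq F] {d u : α}

/-- Repetition of a step on the file `c`. -/
theorem tri_repQ {c : F} {p : Prog M F α} {t k : ℕ} (Q : ℕ → Zip α → Prop)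
    (hp : ∀ n (s : Store M F α), Q n (s.z c) →
      Tri d p s t (fun s' => Q (n + k) (s'.z c) ∧ Keep [c] s s'))
    (r : ℕ) {s : Store M F α} {n : ℕ} (hc : Q n (s.z c)) :
    Tri d (rep r p) s (r * t + 1) (fun s' => Q (n + r * k) (s'.z c) ∧ Keep [c] s s') := by
  refine Tri.rep r p (fun i s' => Q (n + i * k) (s'.z c) ∧ Keep [c] s s') t ?_
    ⟨by simpa using hc, Keep.refl _ _⟩
  rintro i _ s' ⟨h1, h2⟩
  refine (hp _ s' h1).post ?_
  rintro s'' ⟨h3, h4⟩
  refine ⟨?_, h2.trans h4⟩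
  rw [Nat.add_mul, Nat.one_mul, ← Nat.add_assoc]
  exact h3

/-- A loop over a ruler of steps on the file `c`. -/
theorem tri_for1 {b c : F} (hbc : b ≠ c) {p : Prog M F α} {t k : ℕ} (Q : ℕ → Zip α → Prop)
    (hp : ∀ n (s : Store M F α), Q n (s.z c) →
      Tri d p s t (fun s' => Q (n + k) (s'.z c) ∧ Keep [c] s s'))
    {s : Store M F α} {n j : ℕ} (hb : Len u 0 j (s.z b)) (hc : Q n (s.z c)) :
    Tri d (forU b p) s (j * (t + 2) + 2) (fun s' => Q (n + j * k) (s'.z c) ∧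
      Len u 0 j (s'.z b) ∧ Keep [b, c] s s') := by
  refine (tri_forU (d := d) (f := b) (p := p) (n := j)
    (fun i s' => Q (n + i * k) (s'.z c) ∧ Keep [b, c] s s') t ?_ ?_ hb
    ⟨by simpa using hc, Keep.refl _ _⟩).mono le_rfl ?_
  · rintro i s' v ⟨h3, h5⟩
    exact ⟨by simpa [Function.update_of_ne hbc.symm] using h3, h5.upd (by simp) v⟩
  · rintro i hi s' - ⟨h3, h5⟩
    refine (hp _ s' h3).post ?_
    rintro s'' ⟨h6, h7⟩
    refine ⟨h7.z (by simp [hbc]), ?_, h5.trans (h7.mono (by simp))⟩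
    rw [Nat.add_mul, Nat.one_mul, ← Nat.add_assoc]
    exact h6
  · rintro s' ⟨h3, h4, h5⟩
    exact ⟨h4, h3, h5⟩

/-- A double loop over rulers of steps on the file `c`. -/
theorem tri_for2 {a b c : F} (hab : a ≠ b) (hac : a ≠ c) (hbc : b ≠ c) {p : Prog M F α}
    {t k : ℕ} (Q : ℕ → Zip α → Prop)
    (hp : ∀ n (s : Store M F α), Q n (s.z c) →
      Tri d p s t (fun s' => Q (n + k) (s'.z c) ∧ Keep [c] s s'))
    {s : Store M F α} {n m j : ℕ} (ha : Len u 0 m (s.z a)) (hb : Len u 0 j (s.z b))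
    (hc : Q n (s.z c)) :
    Tri d (forU a (forU b p)) s (m * (j * (t + 2) + 2 + 2) + 2)
      (fun s' => Q (n + m * (j * k)) (s'.z c) ∧
      Len u 0 m (s'.z a) ∧ Len u 0 j (s'.z b) ∧ Keep [a, b, c] s s') := by
  refine (tri_forU (d := d) (f := a) (p := forU b p) (n := m)
    (fun i s' => Q (n + i * (j * k)) (s'.z c) ∧ Len u 0 j (s'.z b) ∧ Keep [a, b, c] s s')
    (j * (t + 2) + 2) ?_ ?_ ha
    ⟨by simpa using hc, hb, Keep.refl _ _⟩).mono le_rfl ?_
  · rintro i s' v ⟨h3, h4, h5⟩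
    exact ⟨by simpa [Function.update_of_ne hac.symm] using h3, h4.upd hab.symm v,
      h5.upd (by simp) v⟩
  · rintro i hi s' - ⟨h3, h4, h5⟩
    refine (tri_for1 hbc Q hp h4 h3).post ?_
    rintro s'' ⟨h6, h7, h8⟩
    refine ⟨h8.z (by simp [hab, hac]), ?_, h7, h5.trans (h8.mono (by simp))⟩
    rw [Nat.add_mul, Nat.one_mul, ← Nat.add_assoc]
    exact h6
  · rintro s' ⟨h3, h4, h5, h6⟩
    exact ⟨h4, h3, h5, h6⟩

/-- Walk two rulers in lockstep and record the number of steps. -/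
def walk2 (q n1 t : F) (u : α) : Prog M F α :=
  .loop (fun _ r => (r q).isSome && (r n1).isSome)
    (.seq (op q .right) (.seq (op n1 .right) (put t u)))

theorem tri_walk2 {q n1 t : F} (hq1 : q ≠ n1) (hqt : q ≠ t) (h1t : n1 ≠ t) {s : Store M F α}
    {x y i : ℕ} (hq : Len u 0 x (s.z q)) (hn : Len u i y (s.z n1)) (ht : Len u 0 0 (s.z t)) :
    Tri d (walk2 q n1 t u) s (5 * min x y + 1) (fun s' =>
      Len u (min x y) (x - min x y) (s'.z q) ∧ Len u (i + min x y) (y - min x y) (s'.z n1) ∧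
      Len u (min x y) 0 (s'.z t) ∧ Keep [q, n1, t] s s') := by
  have := Tri.loop (d := d) (c := fun _ r => (r q).isSome && (r n1).isSome)
    (p := .seq (op q .right) (.seq (op n1 .right) (put t u))) (min x y)
    (fun j s' => Len u j (x - j) (s'.z q) ∧ Len u (i + j) (y - j) (s'.z n1) ∧
      Len u j 0 (s'.z t) ∧ Keep [q, n1, t] s s') 4
    ?_ ?_ ?_ (s := s) ⟨by simpa using hq, by simpa using hn, ht, Keep.refl _ _⟩
  · exact this.mono (by omega) (fun s' h => h)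
  · rintro j hj s' ⟨h1, h2, _⟩
    simp only [Store.reads]
    rw [h1.peek_isSome, h2.peek_isSome]
    simp only [Bool.and_eq_true, decide_eq_true_eq]
    omega
  · rintro s' ⟨h1, h2, _⟩
    simp only [Store.reads]
    rw [h1.peek_isSome, h2.peek_isSome]
    simp only [Bool.and_eq_false_iff, decide_eq_false_iff_not]
    omega
  · rintro j hj s1 ⟨h1, h2, h3, h4⟩
    obtain ⟨x', hx'⟩ : ∃ x', x - j = x' + 1 := ⟨x - j - 1, by omega⟩
    obtain ⟨y', hy'⟩ : ∃ y', y - j = y' + 1 := ⟨y - j - 1, by omega⟩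
    rw [hx'] at h1
    rw [hy'] at h2
    refine (Tri.seq (t' := 3) (tri_right h1) ?_)
    rintro s2 ⟨h5, k5⟩
    have h2' : Len u (i + j) (y' + 1) (s2.z n1) := k5.len (by simp [hq1.symm]) h2
    refine (Tri.seq (t' := 2) (tri_right h2') ?_)
    rintro s3 ⟨h6, k6⟩
    have h3' : Len u j 0 (s3.z t) := k6.len (by simp [h1t.symm]) (k5.len (by simp [hqt.symm]) h3)
    refine (tri_put h3').post ?_
    rintro s4 ⟨h7, k7⟩
    refine ⟨?_, ?_, h7, h4.trans ((k5.mono (by simp)).trans ((k6.mono (by simp)).trans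
      (k7.mono (by simp))))⟩
    · have e : x - (j + 1) = x' := by omega
      rw [e]
      exact k7.len (by simp [hqt]) (k6.len (by simp [hq1]) h5)
    · have e : y - (j + 1) = y' := by omega
      rw [e, ← Nat.add_assoc]
      exact k7.len (by simp [h1t]) h6

/-- One doubling step of the search for the largest power of two below `|n1|`. -/
def dblStep (q n1 t : F) (u : α) : Prog M F α :=
  .seq (op q .rew) (.seq (walk2 q n1 t u) (.ite (fun _ r => (r q).isSome) nop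
    (.seq (op t .rew) (.seq (mvU t q u) (clr t)))))

/-- `q := 2 ^ log |n1|`, `t := |n1| - |q|`. -/
def findPow (q n1 t : F) (u : α) : Prog M F α :=
  .seq (put q u) (.seq (op n1 .right) (.seq
    (.loop (fun _ r => !(r q).isSome) (dblStep q n1 t u))
    (.seq (op q .rew) (.seq (op n1 .rew) (op t .rew)))))

/-- The state after `i` steps. -/
def PowInv (q n1 t : F) (u : α) (a : ℕ) (s0 : Store M F α) (i : ℕ) (s : Store M F α) : Prop :=
  Keep [q, n1, t] s0 s ∧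
    ((i ≤ Nat.log 2 a ∧ Len u (2 ^ i) 0 (s.z q) ∧ Len u (2 ^ i) (a - 2 ^ i) (s.z n1) ∧
      Len u 0 0 (s.z t)) ∨
    (i = Nat.log 2 a + 1 ∧ Len u (a - 2 ^ Nat.log 2 a) (2 * 2 ^ Nat.log 2 a - a) (s.z q) ∧
      Len u a 0 (s.z n1) ∧ Len u (a - 2 ^ Nat.log 2 a) 0 (s.z t)))

theorem tri_dblStep {q n1 t : F} (hq1 : q ≠ n1) (hqt : q ≠ t) (h1t : n1 ≠ t) {a i : ℕ}
    (ha : 1 ≤ a) {s0 s : Store M F α} (hi : i < Nat.log 2 a + 1)
    (h : PowInv q n1 t u a s0 i s) :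
    Tri d (dblStep q n1 t u) s (9 * 2 ^ i + 7) (PowInv q n1 t u a s0 (i + 1)) := by
  obtain ⟨hk, h⟩ := h
  rcases h with ⟨hi', hq, hn, ht⟩ | ⟨hi', _⟩
  swap
  · omega
  have h2i : 2 ^ i ≤ a := (Nat.pow_le_pow_right (by norm_num) hi').trans
    (Nat.pow_log_le_self 2 (by omega))
  refine (Tri.seq (t' := 9 * 2 ^ i + 6) (tri_rew hq) ?_).cost (by omega)
  rintro s1 ⟨h1, k1⟩
  have h1' : Len u 0 (2 ^ i) (s1.z q) := by simpa using h1
  have hn1 : Len u (2 ^ i) (a - 2 ^ i) (s1.z n1) := k1.len (by simp [hq1.symm]) hn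
  have ht1 : Len u 0 0 (s1.z t) := k1.len (by simp [hqt.symm]) ht
  have hmin : min (2 ^ i) (a - 2 ^ i) ≤ 2 ^ i := min_le_left _ _
  refine (Tri.seq (t := 5 * 2 ^ i + 1) (t' := 4 * 2 ^ i + 5)
    ((tri_walk2 hq1 hqt h1t h1' hn1 ht1).cost (by omega)) ?_).cost (by omega)
  rintro s2 ⟨h2, h3, h4, k2⟩
  have kk : Keep [q, n1, t] s0 s2 := hk.trans ((k1.mono (by simp)).trans k2)
  refine (Tri.ite (t := 4 * 2 ^ i + 4) ?_ ?_).cost (by omega)
  · intro hc
    rw [Store.reads, h2.peek_isSome] at hc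
    simp only [decide_eq_true_eq] at hc
    -- `a < 2 ^ (i + 1)`
    have hlt : a < 2 ^ (i + 1) := by rw [pow_succ]; omega
    have hlog : Nat.log 2 a = i := by
      apply le_antisymm _ hi'
      have := Nat.log_lt_of_lt_pow (b := 2) (y := a) (x := i + 1) (by omega) hlt
      omega
    have hm : min (2 ^ i) (a - 2 ^ i) = a - 2 ^ i := by omega
    rw [hm] at h2 h3 h4
    refine (Tri.of_run (run_nop s2.m s2.z) ?_).cost (by omega)
    refine ⟨kk, Or.inr ⟨by omega, ?_, ?_, ?_⟩⟩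
    · rw [hlog]
      have e : 2 * 2 ^ i - a = 2 ^ i - (a - 2 ^ i) := by omega
      rw [e]
      exact h2
    · have e1 : a = 2 ^ i + (a - 2 ^ i) := by omega
      have e2 : 0 = a - 2 ^ i - (a - 2 ^ i) := by omega
      rw [e2]
      conv => arg 2; rw [e1]
      exact h3
    · rw [hlog]
      exact h4
  · intro hc
    rw [Store.reads, h2.peek_isSome] at hc
    simp only [decide_eq_false_iff_not] at hc
    have hge : 2 ^ (i + 1) ≤ a := by rw [pow_succ]; omega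
    have hm : min (2 ^ i) (a - 2 ^ i) = 2 ^ i := by rw [pow_succ] at hge; omega
    rw [hm] at h2 h3 h4
    refine (Tri.seq (t' := 4 * 2 ^ i + 3) (tri_rew h4) ?_).cost (by omega)
    rintro s3 ⟨h5, k3⟩
    have h2' : Len u (2 ^ i) 0 (s3.z q) := k3.len (by simp [hqt]) (by simpa using h2)
    refine (Tri.seq (t' := 2) (tri_mvU hqt.symm h5 h2') ?_).cost (by omega)
    rintro s4 ⟨h6, h7, k4⟩
    refine (tri_clr t s4).post ?_
    rintro s5 ⟨h8, k5⟩
    refine ⟨kk.trans ((k3.mono (by simp)).trans ((k4.mono (by simp)).trans (k5.mono (by simp)))),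
      Or.inl ⟨?_, ?_, ?_, h8⟩⟩
    · exact (Nat.le_log_iff_pow_le (by norm_num) (by omega)).2 hge
    · have e : 2 ^ (i + 1) = 2 ^ i + (2 ^ i + 0) := by rw [pow_succ]; omega
      rw [e]
      exact k5.len (by simp [hqt]) h7
    · have e : 2 ^ (i + 1) = 2 ^ i + 2 ^ i := by rw [pow_succ]; omega
      have e2 : a - (2 ^ i + 2 ^ i) = a - 2 ^ i - 2 ^ i := by omega
      rw [e, e2]
      exact k5.len (by simp [h1t]) (k4.len (by simp [h1t, hq1.symm]) (k3.len (by simp [h1t]) h3))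

theorem sum_nine (n : ℕ) :
    (∑ i ∈ Finset.range n, (9 * 2 ^ i + 7 + 1)) ≤ 9 * 2 ^ n + 8 * n := by
  induction n with
  | zero => simp
  | succ n ih =>
    rw [Finset.sum_range_succ]
    have : 2 ^ (n + 1) = 2 * 2 ^ n := by ring
    omega

theorem tri_findPow {q n1 t : F} (hq1 : q ≠ n1) (hqt : q ≠ t) (h1t : n1 ≠ t) {a : ℕ}
    (ha : 1 ≤ a) {s : Store M F α} (hq : Len u 0 0 (s.z q)) (hn : Len u 0 a (s.z n1))
    (ht : Len u 0 0 (s.z t)) :
    Tri d (findPow q n1 t u) s (40 * a + 20) (fun s' =>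
      Len u 0 (2 ^ Nat.log 2 a) (s'.z q) ∧ Len u 0 a (s'.z n1) ∧
      Len u 0 (a - 2 ^ Nat.log 2 a) (s'.z t) ∧ Keep [q, n1, t] s s') := by
  have hla : 2 ^ Nat.log 2 a ≤ a := Nat.pow_log_le_self 2 (by omega)
  have hal : a < 2 ^ (Nat.log 2 a + 1) := Nat.lt_pow_succ_log_self (by norm_num) a
  have hlt : Nat.log 2 a < 2 ^ Nat.log 2 a := Nat.lt_two_pow_self
  refine (Tri.seq (t' := 40 * a + 18) (tri_put hq) ?_).cost (by omega)
  rintro s1 ⟨h1, k1⟩
  obtain ⟨a', rfl⟩ : ∃ a', a = a' + 1 := ⟨a - 1, by omega⟩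
  have hn1 : Len u 0 (a' + 1) (s1.z n1) := k1.len (by simp [hq1.symm]) hn
  refine (Tri.seq (t' := 40 * (a' + 1) + 17) (tri_right hn1) ?_).cost (by omega)
  rintro s2 ⟨h2, k2⟩
  have h1' : Len u 1 0 (s2.z q) := k2.len (by simp [hq1]) (by simpa using h1)
  have ht2 : Len u 0 0 (s2.z t) := k2.len (by simp [h1t.symm]) (k1.len (by simp [hqt.symm]) ht)
  have hinv : PowInv q n1 t u (a' + 1) s 0 s2 := by
    refine ⟨(k1.mono (by simp)).trans (k2.mono (by simp)), Or.inl ⟨by omega, ?_, ?_, ht2⟩⟩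
    · simpa using h1'
    · simpa using h2
  have hloop := Tri.loop' (d := d) (c := fun _ r => !(r q).isSome) (p := dblStep q n1 t u)
    (Nat.log 2 (a' + 1) + 1) (PowInv q n1 t u (a' + 1) s) (fun i => 9 * 2 ^ i + 7) ?_ ?_
    (fun i hi s' h => tri_dblStep hq1 hqt h1t ha hi h) hinv
  · refine (Tri.seq (t' := 3) hloop ?_).cost ?_
    · rintro s3 ⟨kk, h⟩
      rcases h with ⟨hi, _⟩ | ⟨_, h3, h4, h5⟩
      · omega
      refine (Tri.seq (t' := 2) (tri_rew h3) ?_)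
      rintro s4 ⟨h6, k6⟩
      have h4' : Len u (a' + 1) 0 (s4.z n1) := k6.len (by simp [hq1.symm]) h4
      refine (Tri.seq (t' := 1) (tri_rew h4') ?_)
      rintro s5 ⟨h7, k7⟩
      have h5' : Len u (a' + 1 - 2 ^ Nat.log 2 (a' + 1)) 0 (s5.z t) :=
        k7.len (by simp [h1t.symm]) (k6.len (by simp [hqt.symm]) h5)
      refine (tri_rew h5').post ?_
      rintro s6 ⟨h8, k8⟩
      refine ⟨?_, ?_, by simpa using h8, kk.trans ((k6.mono (by simp)).trans
        ((k7.mono (by simp)).trans (k8.mono (by simp))))⟩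
      · have e : a' + 1 - 2 ^ Nat.log 2 (a' + 1) + (2 * 2 ^ Nat.log 2 (a' + 1) - (a' + 1)) =
            2 ^ Nat.log 2 (a' + 1) := by
          rw [pow_succ] at hal
          omega
        rw [e] at h6
        exact k8.len (by simp [hqt]) (k7.len (by simp [hq1]) h6)
      · exact k8.len (by simp [h1t]) (by simpa using h7)
    · have := sum_nine (Nat.log 2 (a' + 1) + 1)
      have e : 2 ^ (Nat.log 2 (a' + 1) + 1) = 2 * 2 ^ Nat.log 2 (a' + 1) := by ring
      omega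
  · rintro i hi s' ⟨_, h⟩
    rcases h with ⟨_, h3, _⟩ | ⟨hi', _⟩
    · simp only [Store.reads]
      rw [h3.peek_isSome]
      simp
    · omega
  · rintro s' ⟨_, h⟩
    rcases h with ⟨hi, _⟩ | ⟨_, h3, _⟩
    · omega
    · simp only [Store.reads]
      rw [h3.peek_isSome]
      rw [pow_succ] at hal
      simp only [Bool.not_eq_false', decide_eq_true_eq]
      omega

/-- Move right or append. -/
def ext (c : F) (u : α) : Prog M F α := .ite (fun _ r => (r c).isSome) (op c .right) (put c u)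

theorem tri_ext {c : F} {s : Store M F α} {i j : ℕ} (h : Len u i j (s.z c)) :
    Tri d (ext c u) s 3 (fun s' => Len u (i + 1) (j - 1) (s'.z c) ∧ Keep [c] s s') := by
  refine Tri.ite (t := 2) ?_ ?_
  · intro hc
    rw [Store.reads, h.peek_isSome] at hc
    simp only [decide_eq_true_eq] at hc
    obtain ⟨j', rfl⟩ : ∃ j', j = j' + 1 := ⟨j - 1, by omega⟩
    exact (tri_right h).mono (by omega) (fun s' h' => h')
  · intro hc
    rw [Store.reads, h.peek_isSome] at hc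
    simp only [decide_eq_false_iff_not] at hc
    obtain rfl : j = 0 := by omega
    exact tri_put h

/-- Fill the file `nr`. -/
def fill (C0 ρ : ℕ) (n2 nr q t : F) (u : α) : Prog M F α :=
  .seq (forU q (forU n2 (rep C0 (put nr u)))) (.seq (forU t (rep C0 (put nr u)))
    (.seq (rep ρ (put nr u)) (op nr .rew)))

theorem tri_fill (C0 ρ : ℕ) {n2 nr q t : F} (h2nr : n2 ≠ nr) (h2q : n2 ≠ q) (h2t : n2 ≠ t)
    (hnrq : nr ≠ q) (hnrt : nr ≠ t) (hqt : q ≠ t) {s : Store M F α} {b P c : ℕ}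
    (hn2 : Len u 0 b (s.z n2)) (hq : Len u 0 P (s.z q)) (ht : Len u 0 c (s.z t))
    (hnr : Len u 0 0 (s.z nr)) :
    Tri d (fill C0 ρ n2 nr q t u) s
      (P * (b * (C0 * 2 + 3) + 4) + c * (C0 * 2 + 3) + (ρ * 2 + 6)) (fun s' =>
      Len u 0 (P * (b * C0) + c * C0 + ρ) (s'.z nr) ∧ Len u 0 b (s'.z n2) ∧
      Len u 0 P (s'.z q) ∧ Len u 0 c (s'.z t) ∧ Keep [q, n2, nr, t] s s') := by
  have hput : ∀ n (s' : Store M F α), Len u n 0 (s'.z nr) →
      Tri d (rep C0 (put nr u)) s' (C0 * 2 + 1)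
        (fun s'' => Len u (n + C0) 0 (s''.z nr) ∧ Keep [nr] s' s'') := by
    intro n s' h
    have := tri_repQ (d := d) (c := nr) (p := put nr u) (t := 2) (k := 1)
      (fun n z => Len u n 0 z) (fun n s h => tri_put h) C0 h
    simpa using this
  have c2 := tri_for2 (d := d) (a := q) (b := n2) (c := nr) (fun h => h2q h.symm)
    (fun h => hnrq h.symm) h2nr (fun n z => Len u n 0 z) hput hq hn2 hnr
  refine (Tri.seq (t' := c * (C0 * 2 + 3) + (ρ * 2 + 4)) c2 ?_).cost (by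
    have : P * (b * (C0 * 2 + 1 + 2) + 2 + 2) = P * (b * (C0 * 2 + 3) + 4) := by ring
    omega)
  rintro s2 ⟨g4, g5, g6, k2⟩
  have g3' : Len u 0 c (s2.z t) := k2.len (by simp [Ne.symm hqt, Ne.symm h2t, Ne.symm hnrt]) ht
  have c3 := tri_for1 (d := d) (b := t) (c := nr) (fun h => hnrt h.symm)
    (fun n z => Len u n 0 z) hput g3' g4
  refine (Tri.seq (t' := ρ * 2 + 2) c3 ?_).cost (by
    have : c * (C0 * 2 + 1 + 2) = c * (C0 * 2 + 3) := by ring
    omega)
  rintro s3 ⟨g7, g8, k3⟩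
  have c4 := tri_repQ (d := d) (c := nr) (p := put nr u) (t := 2) (k := 1)
      (fun n z => Len u n 0 z) (fun n s h => tri_put h) ρ g7
  refine (Tri.seq (t' := 1) c4 ?_)
  rintro s4 ⟨g9, k4⟩
  refine (tri_rew g9).post ?_
  rintro s5 ⟨g10, k5⟩
  refine ⟨?_, ?_, ?_, ?_, ?_⟩
  · have e : 0 + P * (b * C0) + c * C0 + ρ * 1 + 0 = P * (b * C0) + c * C0 + ρ := by ring
    rw [e] at g10
    exact g10
  · exact k5.len (by simp [h2nr]) (k4.len (by simp [h2nr]) (k3.len (by simp [h2t, h2nr]) g6))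
  · exact k5.len (by simp [Ne.symm hnrq]) (k4.len (by simp [Ne.symm hnrq])
      (k3.len (by simp [hqt, Ne.symm hnrq]) g5))
  · exact k5.len (by simp [Ne.symm hnrt]) (k4.len (by simp [Ne.symm hnrt]) g8)
  · exact (k2.mono (by intro x; simp; tauto)).trans ((k3.mono (by intro x; simp; tauto)).trans
      ((k4.mono (by intro x; simp; tauto)).trans (k5.mono (by intro x; simp; tauto))))

/-- Extend the file `nr` to length at least `576 |w| |w2|`. -/
def extend (w w2 nr : F) (u : α) : Prog M F α :=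
  .seq (forU w (forU w2 (rep 576 (ext nr u)))) (op nr .rew)

theorem tri_extend {w w2 nr : F} (hww2 : w ≠ w2) (hwnr : w ≠ nr) (hw2nr : w2 ≠ nr)
    {s : Store M F α} {W X : ℕ} (hw : Len u 0 W (s.z w)) (hw2 : Len u 0 W (s.z w2))
    (hnr : Len u 0 X (s.z nr)) :
    Tri d (extend w w2 nr u) s (1731 * (W * W) + 4 * W + 3) (fun s' =>
      Len u 0 (max X (576 * (W * W))) (s'.z nr) ∧ Len u 0 W (s'.z w) ∧ Len u 0 W (s'.z w2) ∧
      Keep [w, w2, nr] s s') := by
  have hext : ∀ n (s' : Store M F α), (fun n z => Len u n (X - n) z) n (s'.z nr) →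
      Tri d (rep 576 (ext nr u)) s' (576 * 3 + 1)
        (fun s'' => (fun n z => Len u n (X - n) z) (n + 576) (s''.z nr) ∧
          Keep [nr] s' s'') := by
    intro n s' h
    have := tri_repQ (d := d) (c := nr) (p := ext nr u) (t := 3) (k := 1)
      (fun n z => Len u n (X - n) z) (fun n s h => (tri_ext h).post (by
        rintro s'' ⟨h1, h2⟩
        refine ⟨?_, h2⟩
        rw [Nat.sub_sub] at h1
        exact h1)) 576 h
    simpa using this
  have g : (fun n z => Len u n (X - n) z) 0 (s.z nr) := by simpa using hnr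
  have c6 := tri_for2 (d := d) (a := w) (b := w2) (c := nr) hww2 hwnr hw2nr
    (fun n z => Len u n (X - n) z) hext hw hw2 g
  refine (Tri.seq (t' := 1) c6 ?_).cost ?_
  swap
  · have e2 : W * (W * (576 * 3 + 1 + 2) + 2 + 2) = 1731 * (W * W) + 4 * W := by ring
    rw [e2]
  rintro s6 ⟨g11, g12, g13, k6⟩
  refine (tri_rew g11).post ?_
  rintro s7 ⟨g14, k7⟩
  refine ⟨?_, k7.len (by simp [hwnr]) g12, k7.len (by simp [hw2nr]) g13,
    k6.trans (k7.mono (by simp))⟩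
  have e7 : 0 + W * (W * 576) + (X - (0 + W * (W * 576))) = max X (576 * (W * W)) := by
    have e6 : 0 + W * (W * 576) = 576 * (W * W) := by ring
    rw [e6]
    omega
  rw [e7] at g14
  exact g14

/-- The ruler `nr`. -/
def nrProg (C0 ρ : ℕ) (n1 n2 w w2 nr q t : F) (u : α) : Prog M F α :=
  .seq (findPow q n1 t u) (.seq (fill C0 ρ n2 nr q t u) (.seq (extend w w2 nr u)
    (.seq (clr q) (clr t))))

/-- The constant of the cost. -/
def nrC (C0 ρ : ℕ) : ℕ := 4 * C0 + 2 * ρ + 1830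

theorem nr_cost (C0 ρ : ℕ) {a b W P : ℕ} (ha : 1 ≤ a) (haW : a ≤ W) (hbW : b ≤ W)
    (hP : P ≤ a) : (40 * a + 20) + ((P * (b * (C0 * 2 + 3) + 4) + (a - P) * (C0 * 2 + 3) +
      (ρ * 2 + 6)) + ((1731 * (W * W) + 4 * W + 3) + (2 + 2))) ≤ nrC C0 ρ * (W * W) := by
  have hW : 1 ≤ W := by omega
  have hWW : W ≤ W * W := Nat.le_mul_of_pos_left _ hW
  have e1 : P * (b * (C0 * 2 + 3) + 4) ≤ W * (W * (C0 * 2 + 3) + 4) := by
    apply Nat.mul_le_mul (hP.trans haW)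
    have := Nat.mul_le_mul_right (C0 * 2 + 3) hbW
    omega
  have e2 : W * (W * (C0 * 2 + 3) + 4) = (2 * C0 + 3) * (W * W) + 4 * W := by ring
  have e3 : (a - P) * (C0 * 2 + 3) ≤ (W * W) * (C0 * 2 + 3) := by
    apply Nat.mul_le_mul_right
    omega
  have e4 : ρ * 2 ≤ ρ * 2 * (W * W) := Nat.le_mul_of_pos_right _ (by omega)
  have e5 : nrC C0 ρ * (W * W) = (2 * C0 + 3) * (W * W) + (W * W) * (C0 * 2 + 3) +
      ρ * 2 * (W * W) + 1824 * (W * W) := by
    unfold nrC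
    ring
  rw [e5]
  omega

theorem tri_nr (C0 ρ : ℕ) {n1 n2 w w2 nr q t : F}
    (hdist : [n1, n2, w, w2, nr, q, t].Nodup) {s : Store M F α} {a b W : ℕ}
    (ha : 1 ≤ a) (haW : a ≤ W) (hbW : b ≤ W)
    (hn1 : Len u 0 a (s.z n1)) (hn2 : Len u 0 b (s.z n2)) (hw : Len u 0 W (s.z w))
    (hw2 : Len u 0 W (s.z w2)) (hnr : Len u 0 0 (s.z nr)) (hq : Len u 0 0 (s.z q))
    (ht : Len u 0 0 (s.z t)) :
    Tri d (nrProg C0 ρ n1 n2 w w2 nr q t u) s (nrC C0 ρ * (W * W)) (fun s' =>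
      Len u 0 (max (C0 * H784.mu a b + ρ) (576 * (W * W))) (s'.z nr) ∧
      Len u 0 a (s'.z n1) ∧ Len u 0 b (s'.z n2) ∧ Len u 0 W (s'.z w) ∧ Len u 0 W (s'.z w2) ∧
      Len u 0 0 (s'.z q) ∧ Len u 0 0 (s'.z t) ∧ Keep [n1, n2, w, w2, nr, q, t] s s') := by
  simp only [List.nodup_cons, List.mem_cons, List.not_mem_nil, or_false, not_or,
    List.nodup_nil, not_false_eq_true, and_true] at hdist
  obtain ⟨⟨h12, h1w, h1w2, h1nr, h1q, h1t⟩, ⟨h2w, h2w2, h2nr, h2q, h2t⟩, ⟨hww2, hwnr, hwq, hwt⟩,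
    ⟨hw2nr, hw2q, hw2t⟩, ⟨hnrq, hnrt⟩, hqt⟩ := hdist
  obtain ⟨P, hP⟩ : ∃ P, P = 2 ^ Nat.log 2 a := ⟨_, rfl⟩
  have hPa : P ≤ a := hP ▸ Nat.pow_log_le_self 2 (by omega)
  have c1 := tri_findPow (d := d) (fun h => h1q h.symm) hqt h1t ha hq hn1 ht
  rw [← hP] at c1
  refine Tri.cost (Tri.seq c1 (t' := (P * (b * (C0 * 2 + 3) + 4) + (a - P) * (C0 * 2 + 3) +
      (ρ * 2 + 6)) + ((1731 * (W * W) + 4 * W + 3) + (2 + 2))) ?_) (nr_cost C0 ρ ha haW hbW hPa)
  rintro s1 ⟨g1, g2, g3, k1⟩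
  refine Tri.seq (tri_fill C0 ρ h2nr h2q h2t hnrq hnrt hqt (k1.len (by
    simp [h2q, Ne.symm h12, h2t]) hn2) g1 g3 (k1.len (by
    simp [hnrq, Ne.symm h1nr, hnrt]) hnr)) ?_
  rintro s2 ⟨g4, g5, g6, g7, k2⟩
  refine Tri.seq (tri_extend hww2 hwnr hw2nr
    (k2.len (by simp [hwq, Ne.symm h2w, hwnr, hwt]) (k1.len (by simp [hwq, Ne.symm h1w, hwt]) hw))
    (k2.len (by simp [hw2q, Ne.symm h2w2, hw2nr, hw2t]) (k1.len (by
      simp [hw2q, Ne.symm h1w2, hw2t]) hw2)) g4) ?_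
  rintro s3 ⟨g8, g9, g10, k3⟩
  refine Tri.seq (tri_clr q s3) ?_
  rintro s4 ⟨g11, k4⟩
  refine (tri_clr t s4).post ?_
  rintro s5 ⟨g12, k5⟩
  have hmu : P * (b * C0) + (a - P) * C0 + ρ = C0 * H784.mu a b + ρ := by
    unfold H784.mu
    rw [← hP]
    ring
  rw [hmu] at g8
  refine ⟨?_, ?_, ?_, ?_, ?_, ?_, g12, ?_⟩
  · exact k5.len (by simp [hnrt]) (k4.len (by simp [hnrq]) g8)
  · exact k5.len (by simp [h1t]) (k4.len (by simp [h1q]) (k3.len (by simp [h1w, h1w2, h1nr])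
      (k2.len (by simp [h1q, h12, h1nr, h1t]) g2)))
  · exact k5.len (by simp [h2t]) (k4.len (by simp [h2q]) (k3.len (by simp [h2w, h2w2, h2nr]) g5))
  · exact k5.len (by simp [hwt]) (k4.len (by simp [hwq]) g9)
  · exact k5.len (by simp [hw2t]) (k4.len (by simp [hw2q]) g10)
  · exact k5.len (by simp [hqt]) g11
  · exact (k1.mono (by intro x; simp; tauto)).trans ((k2.mono (by intro x; simp; tauto)).trans
      ((k3.mono (by intro x; simp; tauto)).trans ((k4.mono (by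
      intro x; simp; tauto)).trans (k5.mono (by intro x; simp; tauto)))))

end Vale.Agent.P338.R2.H778
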