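import Vale.Agent.P338.R2.H898.Final2

/-!
P338: consequences of the hardness of square transposition for all sizes.
-/

namespace Vale.Agent.P338.R2.H778

open Vale.Agent.P338.R2.H898

/-- If square transposition is hard, then for every large `n` some `k` between `n / 32` and `n`
has `T_A(k) ≥ c n log n`. -/
theorem sizes_of_squareHard {C₀ : ℕ} (hC₀ : 1 ≤ C₀) {A : MTM} (hI : IneqL C₀ A)
    (hS : SquareHard) : ∃ c : ℝ, 0 < c ∧ ∃ N : ℕ, 2 ≤ N ∧ ∀ n : ℕ, N ≤ n → ∃ k : ℕ,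
      k ≤ n ∧ n ≤ 32 * k ∧ c * (n * Real.log n) ≤ mulTime A k := by
  obtain ⟨c, hc, N₁, hN₁⟩ := mul_sizes_of_squareHard hI hS
  have hC₀' : 0 < C₀ := by omega
  refine ⟨c / (16 * C₀) / 8, by positivity,
    2 * C₀ * (N₁ + 2) ^ 2 + (16 * C₀) ^ 2 * 4 + 4, by omega, fun n hn => ?_⟩
  set q := n / (2 * C₀) with hq
  set m := Nat.sqrt q with hm
  have h1 : 2 * C₀ * q ≤ n := Nat.mul_div_le n (2 * C₀)
  have h1' : n < 2 * C₀ * (q + 1) := by
    have := Nat.div_add_mod n (2 * C₀)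
    have h2 : n % (2 * C₀) < 2 * C₀ := Nat.mod_lt _ (by omega)
    rw [← hq] at this
    nlinarith
  have h2 : m * m ≤ q := Nat.sqrt_le q
  have h3 : q < (m + 1) * (m + 1) := Nat.lt_succ_sqrt q
  have hqN : (N₁ + 2) ^ 2 ≤ q := by
    rw [hq, Nat.le_div_iff_mul_le (by omega)]
    nlinarith
  have hmN : N₁ + 2 ≤ m := by
    rw [hm, Nat.le_sqrt]
    nlinarith
  have hkn : C₀ * mu m m + 0 ≤ n := by
    have := mu_self_le m
    calc C₀ * mu m m + 0 ≤ C₀ * (2 * m ^ 2) := by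
          simpa using Nat.mul_le_mul_left C₀ this
      _ = 2 * C₀ * (m * m) := by ring
      _ ≤ 2 * C₀ * q := Nat.mul_le_mul_left _ h2
      _ ≤ n := h1
  have g1 := hN₁ 0 hC₀' m (by omega)
  have hnm' : n ≤ 16 * C₀ * m ^ 2 := by
    have e1 : q + 1 ≤ (m + 1) * (m + 1) := h3
    have e2 : (m + 1) * (m + 1) ≤ 4 * m ^ 2 := by nlinarith
    calc n ≤ 2 * C₀ * (q + 1) := h1'.le
      _ ≤ 2 * C₀ * (4 * m ^ 2) := Nat.mul_le_mul_left _ (e1.trans e2)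
      _ ≤ 16 * C₀ * m ^ 2 := by nlinarith
  have hnk : n ≤ 32 * (C₀ * mu m m + 0) := by
    have e1 := le_mu_self m
    calc n ≤ 16 * C₀ * m ^ 2 := hnm'
      _ ≤ 16 * C₀ * (2 * mu m m) := Nat.mul_le_mul_left _ e1
      _ = 32 * (C₀ * mu m m + 0) := by ring
  have hnm : (n : ℝ) ≤ 16 * C₀ * (m : ℝ) ^ 2 := by exact_mod_cast hnm'
  have hmR : (2 : ℝ) ≤ m := by
    have : 2 ≤ m := by omega
    exact_mod_cast this
  have hnpos : (0 : ℝ) < n := by
    have : 0 < n := by omega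
    exact_mod_cast this
  have hC₀R : (1 : ℝ) ≤ C₀ := by exact_mod_cast hC₀
  have hlog : Real.log n ≤ 8 * Real.log m := by
    have e1 : ((16 * C₀ : ℕ) : ℝ) ^ 2 ≤ n := by
      exact_mod_cast (by omega : (16 * C₀) ^ 2 ≤ n)
    push_cast at e1
    have e2 : (n : ℝ) ^ 2 ≤ (16 * C₀ * (m : ℝ) ^ 2) ^ 2 := pow_le_pow_left₀ hnpos.le hnm 2
    have e3 : (16 * (C₀ : ℝ) * (m : ℝ) ^ 2) ^ 2 = (16 * C₀) ^ 2 * (m : ℝ) ^ 4 := by ring
    have e4 : (16 * (C₀ : ℝ)) ^ 2 * (m : ℝ) ^ 4 ≤ n * (m : ℝ) ^ 4 :=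
      mul_le_mul_of_nonneg_right e1 (by positivity)
    have e5 : (n : ℝ) * n ≤ n * (m : ℝ) ^ 4 := by nlinarith
    have e6 : (n : ℝ) ≤ (m : ℝ) ^ 4 := le_of_mul_le_mul_left e5 hnpos
    have e7 := Real.log_le_log hnpos e6
    rw [Real.log_pow] at e7
    push_cast at e7
    have : 0 ≤ Real.log m := Real.log_nonneg (by linarith)
    linarith
  have hlogn : 0 ≤ Real.log n := Real.log_nonneg (by
    have : 1 ≤ n := by omega
    exact_mod_cast this)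
  have hfin : (n : ℝ) * Real.log n ≤ 16 * C₀ * 8 * ((m : ℝ) ^ 2 * Real.log m) := by
    calc (n : ℝ) * Real.log n ≤ (16 * C₀ * (m : ℝ) ^ 2) * (8 * Real.log m) :=
          mul_le_mul hnm hlog hlogn (by positivity)
      _ = _ := by ring
  refine ⟨C₀ * mu m m + 0, hkn, hnk, ?_⟩
  calc c / (16 * C₀) / 8 * ((n : ℝ) * Real.log n)
      ≤ c / (16 * C₀) / 8 * (16 * C₀ * 8 * ((m : ℝ) ^ 2 * Real.log m)) :=
        mul_le_mul_of_nonneg_left hfin (by positivity)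
    _ = c * ((m : ℝ) ^ 2 * Real.log m) := by field_simp
    _ ≤ _ := g1

/-- If square transposition is hard and `T_A(k) ≤ K T_A(n)` whenever `k ≤ n ≤ 32 k`, then
`T_A(n) ≥ c n log n` for all large `n`. -/
theorem mulHard_of_squareHard_weak {C₀ : ℕ} (hC₀ : 1 ≤ C₀) {A : MTM} (hI : IneqL C₀ A)
    (hS : SquareHard) (K : ℝ)
    (hA : ∀ k n : ℕ, k ≤ n → n ≤ 32 * k → (mulTime A k : ℝ) ≤ K * mulTime A n) : MulHard A := by
  obtain ⟨c, hc, N, hN2, hN⟩ := sizes_of_squareHard hC₀ hI hS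
  refine ⟨c / (|K| + 1), by positivity, N, hN2, fun n hn => ?_⟩
  obtain ⟨k, hk, hnk, hkc⟩ := hN n hn
  have h1 := hA k n hk hnk
  have h2 : K * (mulTime A n : ℝ) ≤ (|K| + 1) * mulTime A n := by
    apply mul_le_mul_of_nonneg_right _ (Nat.cast_nonneg _)
    have := le_abs_self K
    linarith
  rw [div_mul_eq_mul_div, div_le_iff₀ (by positivity)]
  linarith

/-- The same when `T_A` is monotone up to a constant factor. -/
theorem mulHard_of_squareHard_almost {C₀ : ℕ} (hC₀ : 1 ≤ C₀) {A : MTM} (hI : IneqL C₀ A)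
    (hS : SquareHard) (K : ℝ)
    (hA : ∀ k n : ℕ, k ≤ n → (mulTime A k : ℝ) ≤ K * mulTime A n) : MulHard A :=
  mulHard_of_squareHard_weak hC₀ hI hS K (fun k n h _ => hA k n h)

end Vale.Agent.P338.R2.H778
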